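import Vale.Agent.P280.H690.LocGens

/-! P280, plan T7, row EXT (row 8204): a homogeneous solution from any solution. -/

open DirectSum Vale.Agent.P280.T Vale.Agent.P280.H127 Vale.Agent.P280.N

namespace Vale.Agent.P280.H690

variable {r : ℕ} {R : Type} [CommRing R] [IsDomain R] [Algebra ℂ R]
  {𝒜 : ℕ × (Fin r → ℤ) → Submodule ℂ R} [GradedAlgebra 𝒜]

/-- **(c), second half**: a homogeneous solution from any solution -/
theorem ext_hom (hX : IsTorusManifold 𝒜) (z : FP 𝒜) {n : ℕ} {u : Fin n → R}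
    {wt : Fin n → Fin r → ℤ}
    (G : Gens (coarse 𝒜 (rl (AddMonoidHom.id (Fin r → ℤ)) z.ν)) z.q u wt)
    (hn : (n : ℕ∞) = (mx z.q).height) {i j : Fin n} (hij : i ≠ j) {di dj : ℕ}
    (hui : u i ∈ 𝒜 (di, di • z.ν + wt i)) (huj : u j ∈ 𝒜 (dj, dj • z.ν + wt j)) {θ : Fin r → ℤ}
    {e e' : FractionRing R} (he : HK 𝒜 0 θ e) (he' : HK 𝒜 0 θ e') {x0 : FractionRing R} {N : ℕ}
    (h1 : Rg z.q (iK (u i) ^ N * (x0 - e))) (h2 : Rg z.q (iK (u j) ^ N * (x0 - e'))) :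
    ∃ x M, HK 𝒜 0 θ x ∧ Rg z.q (iK (u i) ^ M * (x - e)) ∧ Rg z.q (iK (u j) ^ M * (x - e')) := by
  have T := par_two hX G hn hij
  have hHK : HK 𝒜 ((N * (di + dj) : ℕ) : ℤ) (θ + N • ((di • z.ν + wt i) + (dj • z.ν + wt j)))
      ((iK (u i) * iK (u j)) ^ N * (e - e')) := by
    have h1 : HK 𝒜 ((N * (di + dj) : ℕ) : ℤ) (N • ((di • z.ν + wt i) + (dj • z.ν + wt j)))
        (iK ((u i * u j) ^ N)) := by
      refine HK.ofR ?_
      have h4 := SetLike.pow_mem_graded N (SetLike.mul_mem_graded hui huj)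
      have h5 : N • ((di, di • z.ν + wt i) + (dj, dj • z.ν + wt j)) =
          (N * (di + dj), N • ((di • z.ν + wt i) + (dj • z.ν + wt j))) := by
        simp only [Prod.mk_add_mk, Prod.smul_mk, smul_eq_mul]
      rwa [h5] at h4
    have h2 := h1.mul (he.sub he')
    rw [iK_pow, iK_mul] at h2
    exact h2.cast (add_zero _) (add_comm _ _)
  have hr : Rg z.q ((iK (u i) * iK (u j)) ^ N * (e - e')) := by
    have h3 : (iK (u i) * iK (u j)) ^ N * (e - e') =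
        iK (u i ^ N) * (iK (u j) ^ N * (x0 - e')) - iK (u j ^ N) * (iK (u i) ^ N * (x0 - e)) := by
      rw [iK_pow, iK_pow]
      ring
    rw [h3]
    exact ((Rg.iK _).mul h2).sub ((Rg.iK _).mul h1)
  obtain ⟨k, k', s, a, hs, ha, hk, hs1, e1⟩ := hHK.exists_den hX z.nv z.fix hr
  have hk2 : k' = N * (di + dj) + k := by exact_mod_cast hk
  have hloc : a ∈ loc z.q (pp (u i) (u j) N N) := by
    obtain ⟨b, s', hs', h3⟩ := h1
    obtain ⟨b', s'', hs'', h4⟩ := h2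
    refine loc_of_mul (t := s' * s'') (by
      rw [map_mul]; exact mul_ne_zero hs' hs'') (le_loc (mem_pp.2
        ⟨s * s' * b', -(s * s'' * b), ?_⟩))
    apply iK_inj
    simp only [iK_mul, iK_pow, iK_neg, iK_add]
    rw [← e1, ← h3, ← h4]
    ring
  obtain ⟨x, h5, h6, h7⟩ := split_hom T.x0 T.y0 hui huj he hs (by rw [hs1]; exact one_ne_zero)
    ha hk2 e1 hloc
  exact ⟨x, N, h5, h6, h7⟩

end Vale.Agent.P280.H690
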