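import Vale.Agent.P280.H60.Rt

/-! P280, T7, helper690: step (A1) of END. -/

open DirectSum Vale.Agent.P280.T Vale.Agent.P280.H127

namespace Vale.Agent.P280.H690

open Vale.Agent.P280.N Vale.Agent.P280.H490 Vale.Agent.P280.H143 Vale.Agent.P280.H60

variable {r : ℕ} {R : Type} [CommRing R] [IsDomain R] [Algebra ℂ R]
  {𝒜 : ℕ × (Fin r → ℤ) → Submodule ℂ R} [GradedAlgebra 𝒜]

omit [IsDomain R] [GradedAlgebra 𝒜] in
/-- A tangent vector after a field which vanishes at the point. -/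
theorem tan_comp {y : FP 𝒜} {u : R →ₗ[ℂ] ℂ} (hu : IsTangent y.q u) {G : Derivation ℂ R R}
    (hG : ∀ h, y.q (G h) = 0) : IsTangent y.q (u.comp (G : R →ₗ[ℂ] R)) := by
  intro a b
  change u (G (a * b)) = y.q a * u (G b) + y.q b * u (G a)
  rw [Derivation.leibniz, smul_eq_mul, smul_eq_mul, map_add, hu, hu, hG, hG]
  ring

omit [IsDomain R] [GradedAlgebra 𝒜] in
theorem wt_comp {y : FP 𝒜} {χ ω : Fin r → ℤ} {u : R →ₗ[ℂ] ℂ} (hu : HasWeight 𝒜 y.ν χ u)
    {G : Derivation ℂ R R} (hG : H93.IsHField 𝒜 ω G) :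
    HasWeight 𝒜 y.ν (χ + ω) (u.comp (G : R →ₗ[ℂ] R)) := by
  intro d m h hh hne
  have h1 := hu d _ _ (hG d m h hh) hne
  rw [← add_assoc, ← h1]
  abel

theorem root0 {N : ℤ} {χ : Fin r → ℤ} {β : (Fin r → ℤ) →+ ℤ} {α : ℂ} {E F : Derivation ℂ R R}
    (hR : Rt 𝒜 N χ β α E F) : Root0 𝒜 N χ β (toVF E) (toVF F) where
  globE := toVF_glob E
  globF := toVF_glob F
  hvE := hv_toVF hR.hE
  hvF := hv_toVF hR.hF
  two := hR.two
  br := ⟨α, fun d m h hh => by
    rw [← toVF_lie, toVF_iK, Derivation.commutator_apply, hR.br d m h hh, ← iK_smul, ← iK_neg]⟩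

/-- The bound of the coroot on the weights. -/
theorem rt_bd (H : H63X.Hyp 𝒜) {N : ℤ} (hN : 0 < N) {χ : Fin r → ℤ} (hχ : Vx 𝒜 χ)
    {β : (Fin r → ℤ) →+ ℤ} {α : ℂ} {E F : Derivation ℂ R R} (hR : Rt 𝒜 N χ β α E F)
    {μ : Fin r → ℤ} (hμ : Wt 𝒜 μ) : β μ ≤ 2 * N := by
  by_cases h1 : μ = χ
  · rw [h1, hR.two]
  by_cases h2 : μ = -χ
  · rw [h2, map_neg, hR.two]
    omega
  have h3 := H63X.root_bd H hN hχ (root0 hR) hμ h1 h2
  have h4 := le_abs_self (β μ)
  omega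

/-- The fields of the weight of a vertex. -/
theorem rt_unique (H : H63X.Hyp 𝒜) {N : ℤ} (hN : 0 < N) {χ : Fin r → ℤ} (hχ : Vx 𝒜 χ)
    {β : (Fin r → ℤ) →+ ℤ} {α : ℂ} {E F : Derivation ℂ R R} (hR : Rt 𝒜 N χ β α E F)
    {D : Derivation ℂ R R} (hD : H93.IsHField 𝒜 χ D) : ∃ k : ℂ, ∀ h, D h = k • E h := by
  obtain ⟨E1, -, -, -, -, -, -, -, -, -, hun⟩ := H63X.vertex_fields H hχ
  obtain ⟨k1, hk1⟩ := hun _ (toVF_glob E) (hv_toVF hR.hE)
  obtain ⟨k2, hk2⟩ := hun _ (toVF_glob D) (hv_toVF hD)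
  have hE0 := (H63X.C07.ne_zero H hN hχ.1 (root0 hR)).1
  have hk : k1 ≠ 0 := by
    rintro rfl
    rw [zero_smul] at hk1
    exact hE0 hk1
  refine ⟨k2 * k1⁻¹, fun h => ?_⟩
  apply iK_inj
  rw [← toVF_iK, hk2, iK_smul, ← toVF_iK, hk1, ← smul_smul]
  change k2 • E1 (iK h) = k2 • (k1⁻¹ • (k1 • E1 (iK h)))
  rw [inv_smul_smul₀ hk]

omit [IsDomain R] in
/-- **(F3).** -/
theorem f3 (hX : IsTorusManifold 𝒜) (hnef : NefOnRationalCurves 𝒜) {N : ℤ} (hN : 0 < N)
    {χ : Fin r → ℤ} {β : (Fin r → ℤ) →+ ℤ} {α : ℂ} {E F : Derivation ℂ R R}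
    (hR : Rt 𝒜 N χ β α E F) (z : FP 𝒜) (hF0 : ∀ h, z.q (F h) = 0) {w : Fin r → ℤ}
    (hw : β w = N) {t : R →ₗ[ℂ] ℂ} (ht : IsTangent z.q t) (htw : HasWeight 𝒜 z.ν (w - χ) t) :
    ∃ u : R →ₗ[ℂ] ℂ, IsTangent z.q u ∧ HasWeight 𝒜 z.ν w u ∧ ∀ h, u (F h) = t h := by
  have hNC : (N : ℂ) ≠ 0 := by exact_mod_cast hN.ne'
  set c : ℂ := (N : ℂ)⁻¹ with hc
  have hFc : H93.IsHField 𝒜 (-χ) (c • F) := by
    intro d m h hh
    rw [Derivation.smul_apply]
    exact Submodule.smul_mem _ _ (hR.hF d m h hh)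
  set b : (Fin r → ℤ) →+ ℂ := (AddMonoidHom.mulLeft c).comp ((Int.castAddHom ℂ).comp β) with hb
  have hba : ∀ x, b x = c * (β x : ℂ) := fun x => rfl
  obtain ⟨u, hu, huw, hut⟩ := H224.exch_vec hX hnef z.nv z.fix hR.hE hFc (b := b) (c := c * α)
    (by
      rw [hba, hR.two, hc]
      push_cast
      field_simp)
    (fun d m h hh => by
      rw [Derivation.commutator_apply, Derivation.smul_apply, Derivation.smul_apply,
        Derivation.map_smul, ← smul_sub]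
      have h1 := hR.br d m h hh
      have h2 : F (E h) - E (F h) = ((d : ℂ) * α + (β m : ℂ)) • h := by
        rw [← neg_inj, neg_sub, h1]
      rw [h2, smul_smul, hba]
      congr 1
      ring)
    (fun h => by
      rw [Derivation.smul_apply, map_smul, hF0, smul_zero])
    (χ := w - χ) (κ := -1) (by
      rw [hba, map_sub, hw, hR.two, hc]
      push_cast
      field_simp
      ring) (by norm_num) ht htw
  rw [sub_add_cancel] at huw
  refine ⟨c • u, ?_, ?_, fun h => ?_⟩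
  · intro a b'
    rw [LinearMap.smul_apply, LinearMap.smul_apply, LinearMap.smul_apply, hu, smul_add, smul_eq_mul,
      smul_eq_mul, smul_eq_mul, smul_eq_mul]
    ring
  · intro d m h hh hne
    refine huw d m h hh fun h0 => hne ?_
    rw [LinearMap.smul_apply, h0, smul_zero]
  · rw [hut]
    change c • u (F h) = u ((c • F) h)
    rw [Derivation.smul_apply, map_smul]

/-- **(A1).** `-ψ = η` is a tangent weight at `z`, no field of weight `η` is different from zero at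
`z`, and the tangent spaces at the fixed points below `z` in the direction `-η` are generated by
fields. Let `χ` be a root with `β η = -N` whose opposite field vanishes at `z`. Then both fields of
the root vanish at `z`, `η + χ` is a tangent weight at `z`, the multiplicities of `η` and `η + χ`
are one, and all fields of weight `η + χ` vanish at `z`. -/
theorem a1 (H : H63X.Hyp 𝒜) {N : ℤ} (hN : 0 < N) {χ : Fin r → ℤ} (hχ : Vx 𝒜 χ)
    {β : (Fin r → ℤ) →+ ℤ} {α : ℂ} {E F : Derivation ℂ R R} (hR : Rt 𝒜 N χ β α E F)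
    (z : FP 𝒜) {η : Fin r → ℤ} (hη : z.Pi η) (hβη : β η = -N)
    (hF0 : ∀ h, z.q (F h) = 0) (h0 : Nf 𝒜 z η)
    (hlow : ∀ (y : FP 𝒜) (n : ℕ), 1 ≤ n → z.ν = y.ν - n • η → y.Pi (-η) → ∀ w, Lf 𝒜 y w) :
    (∀ h, z.q (E h) = 0) ∧ z.Pi (η + χ) ∧ One 𝒜 z η ∧ One 𝒜 z (η + χ) ∧ Nf 𝒜 z (η + χ) := by
  classical
  have hNC : (N : ℂ) ≠ 0 := by exact_mod_cast hN.ne'
  have hη0 : η ≠ 0 := H63X.ne_zero_of_pi H hη
  have hβw : β (η + χ) = N := by
    rw [map_add, hβη, hR.two]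
    ring
  have hw0 : η + χ ≠ 0 := by
    intro h
    rw [h, map_zero] at hβw
    omega
  have hsub : η + χ - χ = η := add_sub_cancel_right η χ
  -- the tangent vector
  obtain ⟨τ, hτ, hτw, hτc⟩ := hη
  have hτ0 : τ ≠ 0 := by
    rintro rfl
    obtain ⟨d, m, h, hh, hne⟩ := hτc 0
    apply hne
    rw [LinearMap.zero_apply, zero_mul, zero_mul]
  -- each tangent vector of weight `η` is `u ∘ F`
  have hf3 : ∀ t : R →ₗ[ℂ] ℂ, IsTangent z.q t → HasWeight 𝒜 z.ν η t →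
      ∃ u : R →ₗ[ℂ] ℂ, IsTangent z.q u ∧ HasWeight 𝒜 z.ν (η + χ) u ∧ ∀ h, u (F h) = t h := by
    intro t ht htw
    exact f3 H.hX H.hN hN hR z hF0 hβw ht (by rw [hsub]; exact htw)
  -- a field of weight `η + χ` and `F`
  have hDF : ∀ D : Derivation ℂ R R, H93.IsHField 𝒜 (η + χ) D → ∀ h, z.q (D (F h)) = 0 := by
    intro D hD h
    have h1 := h0 ⁅D, F⁆ (by
      have h2 := hD.lie hR.hF
      rwa [← sub_eq_add_neg, hsub] at h2) h
    rw [Derivation.commutator_apply, map_sub, hF0, sub_zero] at h1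
    exact h1
  -- the tangent vectors of weight `η + χ`
  have hgen : ∀ u : R →ₗ[ℂ] ℂ, IsTangent z.q u → HasWeight 𝒜 z.ν (η + χ) u →
      ∃ (D D' : Derivation ℂ R R), H93.IsHField 𝒜 (η + χ) D ∧ H93.IsHField 𝒜 χ D' ∧
        (∀ x, z.q (D' x) = 0) ∧ ∀ x, u x = z.q (D x) + τ (D' x) := by
    intro u hu huw
    obtain ⟨D, D', hD, hD', h1, h2⟩ := f2_dir H z hη0 hτ hτw hτ0 (χ := η + χ)
      (fun y n hn hν hpi => ⟨fun k _ => hlow y n hn hν hpi _, fun k hk => by
        have h3 : β (η + χ + k • -η) = (k + 1) * N := by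
          rw [map_add, hβw, map_nsmul, map_neg, hβη, nsmul_eq_mul]
          ring
        have h4 : 2 * N < (k + 1) * N := by
          apply mul_lt_mul_of_pos_right _ hN
          have : (2 : ℤ) ≤ k := by exact_mod_cast hk
          omega
        constructor
        · intro h5
          rw [h5, map_zero] at h3
          omega
        · intro h5
          have h6 := rt_bd H hN hχ hR ⟨y, h5⟩
          omega⟩) hu huw
    rw [add_sub_cancel_left] at hD'
    exact ⟨D, D', hD, hD', h1, h2⟩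
  -- `E` vanishes at `z`
  have hE0 : ∀ h, z.q (E h) = 0 := by
    by_contra hcon
    push Not at hcon
    obtain ⟨x0, hx0⟩ := hcon
    obtain ⟨u, hu, huw, hut⟩ := hf3 τ hτ hτw
    obtain ⟨D, D', hD, hD', h1, h2⟩ := hgen u hu huw
    obtain ⟨k, hk⟩ := rt_unique H hN hχ hR hD'
    have hk0 : k = 0 := by
      have h3 := h1 x0
      rw [hk, map_smul, smul_eq_mul] at h3
      exact (mul_eq_zero.1 h3).resolve_right hx0
    apply hτ0
    refine LinearMap.ext fun h => ?_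
    rw [← hut, h2, hDF D hD, hk, hk0, zero_smul, map_zero, add_zero, LinearMap.zero_apply]
  -- the scalar
  have hαν : α + (β z.ν : ℂ) = 0 := by
    obtain ⟨f, hf, hqf⟩ := exists_deg_one_ne H.hX.gen z.nv z.fix
    have h1 := congrArg z.q (hR.br 1 z.ν f hf)
    rw [map_sub, hE0, hF0, sub_zero, map_neg, map_smul, smul_eq_mul, Nat.cast_one, one_mul] at h1
    exact (mul_eq_zero.1 (neg_eq_zero.1 h1.symm)).resolve_right hqf
  -- `u ∘ E = 0`
  have huE : ∀ u : R →ₗ[ℂ] ℂ, IsTangent z.q u → HasWeight 𝒜 z.ν (η + χ) u → ∀ h, u (E h) = 0 := by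
    intro u hu huw
    have h1 := tan_comp hu hE0
    have h2 := wt_comp huw hR.hE
    have h3 : β (η + χ + χ) = 3 * N := by
      rw [map_add, hβw, hR.two]
      ring
    have h4 : η + χ + χ ≠ 0 := by
      intro h
      rw [h, map_zero] at h3
      omega
    by_contra hcon
    push Not at hcon
    obtain ⟨x, hx⟩ := hcon
    have h5 : z.Pi (η + χ + χ) := tangentWeight_of_ne z.fix h4 h1 h2
      (fun h => hx (LinearMap.congr_fun h x))
    have h6 := rt_bd H hN hχ hR ⟨z, h5⟩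
    omega
  -- `u ∘ F ∘ E = N u`
  have hFE : ∀ u : R →ₗ[ℂ] ℂ, IsTangent z.q u → HasWeight 𝒜 z.ν (η + χ) u →
      ∀ h, u (F (E h)) = N * u h := by
    intro u hu huw
    have key : (u.comp (F : R →ₗ[ℂ] R)).comp (E : R →ₗ[ℂ] R) = (N : ℂ) • u := by
      apply linearMap_ext_graded 𝒜
      rintro ⟨d, m⟩ h hh
      change u (F (E h)) = (N : ℂ) • u h
      have h1 := congrArg u (hR.br d m h hh)
      rw [map_sub, huE u hu huw, zero_sub, map_neg, neg_inj, map_smul] at h1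
      rw [h1]
      by_cases h2 : u h = 0
      · rw [h2, smul_zero, smul_zero]
      · have h3 := huw d m h hh h2
        rw [h3, map_add, hβw, map_nsmul, nsmul_eq_mul]
        congr 1
        push_cast
        linear_combination (d : ℂ) * hαν
    intro h
    have h1 := LinearMap.congr_fun key h
    rwa [LinearMap.smul_apply, smul_eq_mul] at h1
  -- no field of weight `η + χ`
  have hNf : Nf 𝒜 z (η + χ) := by
    intro D hD h
    have h1 := hFE _ (H224.isTangent_value z.q D) (H224.hasWeight_value z.fix hD) h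
    change z.q (D (F (E h))) = N * z.q (D h) at h1
    rw [hDF D hD] at h1
    exact (mul_eq_zero.1 h1.symm).resolve_left hNC
  -- the tangent vectors of weight `η + χ` are multiples of `τ ∘ E`
  have hmul : ∀ u : R →ₗ[ℂ] ℂ, IsTangent z.q u → HasWeight 𝒜 z.ν (η + χ) u →
      ∃ k : ℂ, ∀ h, u h = k * τ (E h) := by
    intro u hu huw
    obtain ⟨D, D', hD, hD', -, h2⟩ := hgen u hu huw
    obtain ⟨k, hk⟩ := rt_unique H hN hχ hR hD'
    refine ⟨k, fun h => ?_⟩
    rw [h2, hNf D hD, hk, map_smul, smul_eq_mul, zero_add]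
  -- two multiples
  have htwo : ∀ k k' : ℂ, ∃ c c' : ℂ, (c ≠ 0 ∨ c' ≠ 0) ∧ c * k + c' * k' = 0 := by
    intro k k'
    by_cases hk : k = 0
    · exact ⟨1, 0, Or.inl one_ne_zero, by rw [hk]; ring⟩
    · exact ⟨k', -k, Or.inr (neg_ne_zero.2 hk), by ring⟩
  refine ⟨hE0, ?_, ?_, ?_, hNf⟩
  · obtain ⟨u, hu, huw, hut⟩ := hf3 τ hτ hτw
    refine tangentWeight_of_ne z.fix hw0 hu huw ?_
    rintro rfl
    apply hτ0
    refine LinearMap.ext fun h => ?_
    rw [← hut, LinearMap.zero_apply, LinearMap.zero_apply]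
  · intro t t' ht htw ht' htw'
    obtain ⟨u, hu, huw, hut⟩ := hf3 t ht htw
    obtain ⟨u', hu', huw', hut'⟩ := hf3 t' ht' htw'
    obtain ⟨k, hk⟩ := hmul u hu huw
    obtain ⟨k', hk'⟩ := hmul u' hu' huw'
    obtain ⟨c, c', hcc, h1⟩ := htwo k k'
    refine ⟨c, c', hcc, fun h => ?_⟩
    rw [← hut, ← hut', hk, hk']
    linear_combination (τ (E (F h))) * h1
  · intro u u' hu huw hu' huw'
    obtain ⟨k, hk⟩ := hmul u hu huw
    obtain ⟨k', hk'⟩ := hmul u' hu' huw'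
    obtain ⟨c, c', hcc, h1⟩ := htwo k k'
    refine ⟨c, c', hcc, fun h => ?_⟩
    rw [hk, hk']
    linear_combination (τ (E h)) * h1

end Vale.Agent.P280.H690
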