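import Vale.Agent.P280.H690.Mix
import Vale.Agent.P280.H60.EndB

/-! P280, T7, helper690: the mixing lemma in the form of END, and END without it. -/

open DirectSum Vale.Agent.P280.T Vale.Agent.P280.H127

namespace Vale.Agent.P280.H690

open Vale.Agent.P280.N Vale.Agent.P280.H490 Vale.Agent.P280.H143 Vale.Agent.P280.H60

variable {r : ℕ} {R : Type} [CommRing R] [IsDomain R] [Algebra ℂ R]
  {𝒜 : ℕ × (Fin r → ℤ) → Submodule ℂ R} [GradedAlgebra 𝒜]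

theorem mixP (H : H63X.Hyp 𝒜) : MixP 𝒜 :=
  fun _ hN _ ha _ _ _ _ hR z hE0 hF0 _ he hpe hpe' hoe hoe' hNe hlow _ hx hβx hxe hc hno hBd =>
    mix H hN ha hR z hE0 hF0 he hpe hpe' hoe hoe' hNe hlow hx hβx hxe hc hno hBd

/-- **END.** -/
theorem end_all (H : H63X.Hyp 𝒜) (hBd : Bd 𝒜) (hS : Src 𝒜) (z : FP 𝒜) (ω : Fin r → ℤ) :
    Lf 𝒜 z ω := end_of H (mixP H) hBd hS z ω

end Vale.Agent.P280.H690
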