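import Vale.Agent.P280.H749.Dat
import Vale.Agent.P280.H60.Frame
import Vale.Agent.P280.H143.Dir
import Vale.Agent.P280.H63X.A01

/-! P280, plan T7 (row 8462): the local solutions extend over a wall. -/

open DirectSum Vale.Agent.P280.T Vale.Agent.P280.H127 Vale.Agent.P280.N

namespace Vale.Agent.P280.H690

open Vale.Agent.P280.H749

variable {r : ℕ} {R : Type} [CommRing R] [IsDomain R] [Algebra ℂ R]
  {𝒜 : ℕ × (Fin r → ℤ) → Submodule ℂ R} [GradedAlgebra 𝒜]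

/-- A curve and a coordinate in the negative direction of a wall. -/
theorem wall_curve (H : H63X.Hyp 𝒜) {c : (Fin r → ℤ) →+ ℤ} {y : FP 𝒜} {b : Fin r → ℤ}
    (hy : Wl c y b) : ∃ (p : FP 𝒜) (n : ℕ) (φ : R →ₐ[ℂ] Polynomial ℂ), Curve y p (-b) n φ := by
  have hb0 : -b ≠ 0 := by
    intro h
    have h1 := hy.pos
    rw [← neg_neg b, h, neg_zero, map_zero] at h1
    exact lt_irrefl _ h1
  obtain ⟨t, ht, htw, hne⟩ := hy.pi
  have ht0 : t ≠ 0 := by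
    rintro rfl
    obtain ⟨d, m, h, -, hh⟩ := hne 0
    apply hh
    rw [LinearMap.zero_apply, zero_mul, zero_mul]
  obtain ⟨p, n, φ, hφ, -⟩ := H143.exists_curve_dir H y hb0 ht htw ht0
  exact ⟨p, n, φ, hφ⟩

/-- A homogeneous rational function regular at `y` is regular at each point over the same point
of `X`. -/
theorem rg_same (hX : IsTorusManifold 𝒜) {y : FP 𝒜} {q : R →ₐ[ℂ] ℂ} (h : SamePoint 𝒜 y.q q)
    {d : ℤ} {m : Fin r → ℤ} {x : FractionRing R} (hx : HK 𝒜 d m x) (hr : Rg y.q x) : Rg q x := by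
  obtain ⟨k, s, -, hs, hys, hs'⟩ := open_fun hX y hx hr
  exact hs' q (A04.samePoint_ne h hs hys)

/-- A homogeneous rational field regular at `y` is regular at each point over the same point
of `X`. -/
theorem rgV_same (hX : IsTorusManifold 𝒜) {y : FP 𝒜} {q : R →ₐ[ℂ] ℂ} (h : SamePoint 𝒜 y.q q)
    {lam : Fin r → ℤ} {v : VF R} (hv : HV 𝒜 lam v) (hr : RgV y.q v) : RgV q v := by
  obtain ⟨k, s, -, hs, hys, hs'⟩ := open_field hX y hv hr
  exact hs' q (A04.samePoint_ne h hs hys)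

/-- The section which does not vanish at the source is a power of the coordinate at a wall. -/
theorem wall_inv (H : H63X.Hyp 𝒜) {c : (Fin r → ℤ) →+ ℤ} (hc : ∀ μ, Wt 𝒜 μ → c μ ≠ 0)
    {p : FP 𝒜} (hp : Pos c p) {f : R} {df : ℕ} {mf : Fin r → ℤ} (hf : f ∈ 𝒜 (df, mf))
    (hpf : p.q f ≠ 0) {y : FP 𝒜} {b : Fin r → ℤ} (hy : Wl c y b) {du : ℕ} {u : R}
    (hu : Crd y (-b) du u) : ∃ k : ℕ, Rg y.q (iK u ^ k * (iK f)⁻¹) := by
  obtain ⟨p', n, φ, hφ⟩ := wall_curve H hy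
  have hpos := hy.pos_end H hφ
  have hsame := H63X.pos_unique H c hc hp hpos
  have hpf' : p'.q f ≠ 0 := A04.samePoint_ne hsame hf hpf
  have hf0 : iK f ≠ 0 := iK_ne_zero (ne_zero_of_q hpf)
  refine hy.pole_fun H.hX hφ ((HK.ofR hf).inv hf0) ⟨1, f, hpf', ?_⟩ hu
  rw [mul_inv_cancel₀ hf0, iK_one]

theorem wall_alg {K : Type} [Field K] {u W f x : K} (hf : f ≠ 0) (k N : ℕ) :
    (u * W) ^ (k * N + N) * x =
      W ^ (k * N) * (u ^ k * f⁻¹) ^ N * ((f * (u * W)) ^ N * x) := by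
  have h : f⁻¹ ^ N * f ^ N = 1 := by rw [← mul_pow, inv_mul_cancel₀ hf, one_pow]
  rw [pow_add, mul_pow u W (k * N), pow_mul u k N, mul_pow (u ^ k), mul_pow f]
  linear_combination (-((u ^ k) ^ N * W ^ (k * N) * (u * W) ^ N * x)) * h

/-- **The wall step** (row 8462). -/
theorem wall_step {ι : Type} [Fintype ι] (H : H63X.Hyp 𝒜) {c : (Fin r → ℤ) →+ ℤ}
    (hc : ∀ μ, Wt 𝒜 μ → c μ ≠ 0) {T : Finset (R × (ι → FractionRing R))} {θ : ι → Fin r → ℤ}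
    {w : ι → VF R} {v : VF R} {g : FP 𝒜 → ι → FractionRing R} (hT : Dt 𝒜 c θ w v g T)
    {p : FP 𝒜} (hp : Pos c p) {f : R} {df : ℕ} {mf : Fin r → ℤ} (hf : f ∈ 𝒜 (df, mf))
    (hpf : p.q f ≠ 0) (hfT : (f, 0) ∈ T) (z : FP 𝒜) (hz : ∀ P ∈ T, z.q P.1 = 0) {y : FP 𝒜}
    {b : Fin r → ℤ} (hy : Wl c y b) (hzy : SamePoint 𝒜 z.q y.q) (hg : ∀ i, HK 𝒜 0 (θ i) (g y i))
    (hgp : ∀ i d u, Crd y (-b) d u → ∃ k, Rg y.q (iK u ^ k * g y i)) :
    ∀ P ∈ T, ∀ i, ∃ N : ℕ, Rg z.q ((iK P.1) ^ N * (g y i - P.2 i)) := by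
  intro P hP i
  obtain ⟨n, χ, du, u, hpi, hu, -⟩ := H63X.coords H y
  obtain ⟨i0, hi0⟩ := (hpi _).1 hy.pi
  have hcrd : Crd y (-b) (du i0) (u i0) := by
    have := hu i0
    rwa [hi0] at this
  obtain ⟨k, hk⟩ := wall_inv H hc hp hf hpf hy hcrd
  obtain ⟨k1, hk1⟩ := hgp i _ _ hcrd
  obtain ⟨d, m, hd, hslp⟩ := hT.slp P hP z hz
  have hyz : SamePoint 𝒜 y.q z.q := A04.samePoint_symm hzy
  have hyP : y.q P.1 = 0 := by
    by_contra hne
    exact A04.samePoint_ne hyz hd hne (hz P hP)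
  have hW : Rg y.q ((iK (u i0))⁻¹ * iK P.1) := by
    refine H60.div_wall H hy hd hyP ?_ hcrd
    rw [A04.samePoint_nu hyz]
    exact hslp
  have hu0 : iK (u i0) ≠ 0 := iK_ne_zero (crd_ne_zero hcrd)
  obtain ⟨W, hWdef⟩ : ∃ W : FractionRing R, W = (iK (u i0))⁻¹ * iK P.1 := ⟨_, rfl⟩
  rw [← hWdef] at hW
  have hPW : iK P.1 = iK (u i0) * W := by
    rw [hWdef, mul_inv_cancel_left₀ hu0]
  obtain ⟨N, a, ha⟩ := pow_of_rg H.hX.finiteType (t := f * P.1) (x := P.2 i) (by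
    intro q hq
    rw [map_mul] at hq
    have h1 := (hT.cmp P hP (f, 0) hfT q (right_ne_zero_of_mul hq) (left_ne_zero_of_mul hq) i)
    have h2 : P.2 i - ((f, (0 : ι → FractionRing R)) : R × (ι → FractionRing R)).2 i = P.2 i :=
      sub_zero _
    rwa [h2] at h1)
  have hf0 : iK f ≠ 0 := iK_ne_zero (ne_zero_of_q hpf)
  have h1 : Rg y.q ((iK P.1) ^ (k * N + N) * P.2 i) := by
    have e : (iK P.1) ^ (k * N + N) * P.2 i =
        W ^ (k * N) * (iK (u i0) ^ k * (iK f)⁻¹) ^ N * iK a := by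
      rw [← ha, iK_pow, iK_mul, hPW]
      exact wall_alg hf0 k N
    rw [e]
    exact ((hW.pow _).mul (hk.pow _)).mul (Rg.iK a)
  have h2 : Rg y.q ((iK P.1) ^ k1 * g y i) := by
    have e : (iK P.1) ^ k1 * g y i = W ^ k1 * (iK (u i0) ^ k1 * g y i) := by
      rw [hPW, mul_pow]
      ring
    rw [e]
    exact (hW.pow _).mul hk1
  refine ⟨k * N + N + k1, ?_⟩
  have h3 : Rg y.q ((iK P.1) ^ (k * N + N + k1) * (g y i - P.2 i)) := by
    have e : (iK P.1) ^ (k * N + N + k1) * (g y i - P.2 i) =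
        (iK P.1) ^ (k * N + N) * ((iK P.1) ^ k1 * g y i) -
          (iK P.1) ^ k1 * ((iK P.1) ^ (k * N + N) * P.2 i) := by
      rw [pow_add _ (k * N + N)]
      ring
    rw [e]
    exact (((Rg.iK P.1).pow _).mul h2).sub (((Rg.iK P.1).pow _).mul h1)
  have h4 : HK 𝒜 (((k * N + N + k1) • (d, m)).1 : ℕ) ((k * N + N + k1) • (d, m)).2
      ((iK P.1) ^ (k * N + N + k1)) := by
    rw [← iK_pow]
    exact HK.ofR (SetLike.pow_mem_graded _ hd)
  exact rg_same H.hX hyz (h4.mul ((hg i).sub (hT.hk P hP i))) h3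

end Vale.Agent.P280.H690
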