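import Vale.Agent.P280.H690.LocIdl
import Vale.Agent.P280.H63X.A05

/-! P280, plan T7, row EXT (row 8078): extension over a codimension two stratum. -/

open DirectSum Vale.Agent.P280.T Vale.Agent.P280.H127 Vale.Agent.P280.N

namespace Vale.Agent.P280.H690

variable {r : ℕ} {R : Type} [CommRing R] [IsDomain R] [Algebra ℂ R]
  {𝒜 : ℕ × (Fin r → ℤ) → Submodule ℂ R} [GradedAlgebra 𝒜]

section par

variable {z : FP 𝒜} {n : ℕ} {u : Fin n → R} {wt : Fin n → Fin r → ℤ}

omit [IsDomain R] in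
/-- a parameter is not in the ideal of the others -/
theorem par_notMem (hX : IsTorusManifold 𝒜)
    (G : Gens (coarse 𝒜 (rl (AddMonoidHom.id (Fin r → ℤ)) z.ν)) z.q u wt)
    (hn : (n : ℕ∞) = (mx z.q).height) {J : Set (Fin n)} {k : Fin n} (hk : k ∉ J) :
    u k ∉ loc z.q (Ideal.span (u '' J)) := by
  classical
  have := noeth hX
  obtain ⟨v, hvT, hvu, -, -⟩ := G.exists_dual (fix_of_isFixed z.fix) hn.le
  rintro ⟨t, ht, h⟩
  have h1 : v k (t * u k) = 0 := by
    refine Submodule.span_induction (p := fun x _ => z.q x = 0 ∧ v k x = 0) ?_ ?_ ?_ ?_ h |>.2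
    · rintro _ ⟨l, hl, rfl⟩
      refine ⟨G.zero l, ?_⟩
      rw [hvu, if_neg]
      rintro rfl
      exact hk hl
    · exact ⟨map_zero _, map_zero _⟩
    · rintro a b - - ⟨h1, h2⟩ ⟨h3, h4⟩
      exact ⟨by rw [map_add, h1, h3, add_zero], by rw [map_add, h2, h4, add_zero]⟩
    · rintro c a - ⟨h1, h2⟩
      refine ⟨by rw [smul_eq_mul, map_mul, h1, mul_zero], ?_⟩
      rw [smul_eq_mul, hvT k, h1, h2, mul_zero, zero_mul, add_zero]
  rw [hvT k, G.zero k, zero_mul, add_zero, hvu, if_pos rfl, mul_one] at h1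
  exact ht h1

omit [IsDomain R] in
theorem par_ne (hX : IsTorusManifold 𝒜)
    (G : Gens (coarse 𝒜 (rl (AddMonoidHom.id (Fin r → ℤ)) z.ν)) z.q u wt)
    (hn : (n : ℕ∞) = (mx z.q).height) (k : Fin n) : u k ≠ 0 := by
  intro h
  refine par_notMem hX G hn (J := ∅) (k := k) (fun h => h) ?_
  rw [h]
  exact Ideal.zero_mem _

omit [IsDomain R] in
/-- the local ideal of some parameters is prime -/
theorem par_prime (hX : IsTorusManifold 𝒜)
    (G : Gens (coarse 𝒜 (rl (AddMonoidHom.id (Fin r → ℤ)) z.ν)) z.q u wt)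
    (hn : (n : ℕ∞) = (mx z.q).height) (J : Set (Fin n)) :
    (loc z.q (Ideal.span (u '' J))).IsPrime := by
  refine ⟨?_, ?_⟩
  · rw [Ideal.ne_top_iff_one]
    rintro ⟨t, ht, h⟩
    have h1 : Ideal.span (u '' J) ≤ mx z.q := by
      rw [Ideal.span_le]
      rintro _ ⟨l, -, rfl⟩
      exact mem_mx.2 (G.zero l)
    have h2 := mem_mx.1 (h1 h)
    rw [mul_one] at h2
    exact ht h2
  · intro a b h
    rcases H11.prime_span hX z G hn J (exists_one h) with ⟨t, ht, h⟩ | ⟨t, ht, h⟩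
    · exact Or.inl ⟨t, by rw [ht]; exact one_ne_zero, h⟩
    · exact Or.inr ⟨t, by rw [ht]; exact one_ne_zero, h⟩

theorem par_two (hX : IsTorusManifold 𝒜)
    (G : Gens (coarse 𝒜 (rl (AddMonoidHom.id (Fin r → ℤ)) z.ν)) z.q u wt)
    (hn : (n : ℕ∞) = (mx z.q).height) {i j : Fin n} (hij : i ≠ j) : Two z.q (u i) (u j) := by
  refine ⟨par_ne hX G hn i, par_ne hX G hn j, ?_, ?_, ?_, ?_, ?_⟩
  · have h := par_prime hX G hn {i}
    rwa [Set.image_singleton] at h
  · have h := par_prime hX G hn {j}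
    rwa [Set.image_singleton] at h
  · have h := par_prime hX G hn {i, j}
    rwa [Set.image_pair] at h
  · have h := par_notMem hX G hn (J := {j}) (k := i) hij
    rwa [Set.image_singleton] at h
  · have h := par_notMem hX G hn (J := {i}) (k := j) hij.symm
    rwa [Set.image_singleton] at h

/-- **(b)** regular after multiplication by powers of two parameters, hence regular -/
theorem two_par (hX : IsTorusManifold 𝒜) (z : FP 𝒜) {n : ℕ} {u : Fin n → R}
    {wt : Fin n → Fin r → ℤ}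
    (G : Gens (coarse 𝒜 (rl (AddMonoidHom.id (Fin r → ℤ)) z.ν)) z.q u wt)
    (hn : (n : ℕ∞) = (mx z.q).height) {i j : Fin n} (hij : i ≠ j) {x : FractionRing R} {N : ℕ}
    (hi : Rg z.q (iK (u i) ^ N * x)) (hj : Rg z.q (iK (u j) ^ N * x)) : Rg z.q x := by
  have T := par_two hX G hn hij
  obtain ⟨a, s, hs, e⟩ := hi
  obtain ⟨a', s', hs', e'⟩ := hj
  have h1 : u j ^ N * (s' * a) ∈ loc z.q (Ideal.span {u i ^ N}) := by
    refine le_loc (Ideal.mem_span_singleton'.2 ⟨s * a', ?_⟩)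
    apply iK_inj
    simp only [iK_mul, iK_pow]
    rw [← e, ← e']
    ring
  obtain ⟨t, ht, h2⟩ := pow_loc' T.x0 T.px T.yx h1
  obtain ⟨c, hc⟩ := Ideal.mem_span_singleton'.1 h2
  refine ⟨c, t * s' * s, by
    rw [map_mul, map_mul]; exact mul_ne_zero (mul_ne_zero ht hs') hs, ?_⟩
  have h0 : iK (u i) ^ N ≠ 0 := pow_ne_zero _ (iK_ne_zero T.x0)
  refine mul_right_cancel₀ h0 ?_
  rw [← iK_pow, ← iK_mul, hc]
  simp only [iK_mul, iK_pow]
  rw [← e]
  ring

end par

section num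

variable {z : FP 𝒜} {n : ℕ} {u : Fin n → R} {wt : Fin n → Fin r → ℤ}

omit [IsDomain R] in
/-- the numeric case: the elements of weight `θ + A wt i + B wt j` -/
theorem num_case (hX : IsTorusManifold 𝒜)
    (G : Gens (coarse 𝒜 (rl (AddMonoidHom.id (Fin r → ℤ)) z.ν)) z.q u wt) {i j : Fin n}
    {θ : Fin r → ℤ}
    (hnum : ∀ (k k' : ℕ) (m : Fin n → ℕ), 1 ≤ k → 1 ≤ k' → m i = 0 → m j = 0 →
      θ + k • wt i + k' • wt j ≠ ∑ l, m l • wt l) (A B : ℕ) :
    ∀ a ∈ coarse 𝒜 (rl (AddMonoidHom.id (Fin r → ℤ)) z.ν) (θ + A • wt i + B • wt j),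
      a ∈ loc z.q (pp (u i) (u j) A B) := by
  classical
  have := noeth hX
  induction A generalizing B with
  | zero =>
    intro a _
    refine le_loc (mem_pp.2 ⟨a, 0, ?_⟩)
    rw [zero_mul, pow_zero, mul_one, add_zero]
  | succ A ihA =>
    induction B with
    | zero =>
      intro a _
      refine le_loc (mem_pp.2 ⟨0, a, ?_⟩)
      rw [zero_mul, pow_zero, mul_one, zero_add]
    | succ B ihB =>
      intro a ha
      set w : Fin r → ℤ := θ + (A + 1) • wt i + (B + 1) • wt j with hw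
      have hw0 : w ≠ 0 := by
        have h := hnum (A + 1) (B + 1) 0 (Nat.le_add_left _ _) (Nat.le_add_left _ _) rfl rfl
        rw [Finset.sum_eq_zero fun l _ => by rw [Pi.zero_apply, zero_smul]] at h
        exact h
      have hq : Fix (coarse 𝒜 (rl (AddMonoidHom.id (Fin r → ℤ)) z.ν)) z.q := fix_of_isFixed z.fix
      have ham : a ∈ mx z.q := mem_mx.2 (hq w hw0 a ha)
      obtain ⟨t, ht0, ht1, ht⟩ := lemmaA' hq G
        (C := {w' | ∃ m : Fin n → ℕ, m i = 0 ∧ m j = 0 ∧ w' = w - ∑ l, m l • wt l}) (J := {i, j})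
        (by
          rintro w' ⟨m, hmi, hmj, rfl⟩ l hl
          have hli : l ≠ i := fun h => hl (Or.inl h)
          have hlj : l ≠ j := fun h => hl (Or.inr h)
          have hs : ∑ l', (m + Pi.single l 1 : Fin n → ℕ) l' • wt l' = ∑ l', m l' • wt l' + wt l := by
            simp only [Pi.add_apply, add_smul, Finset.sum_add_distrib]
            congr 1
            rw [Finset.sum_eq_single l]
            · rw [Pi.single_eq_same, one_smul]
            · intro l' _ hl'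
              rw [Pi.single_eq_of_ne hl', zero_smul]
            · intro h
              exact absurd (Finset.mem_univ l) h
          have hi : (m + Pi.single l 1 : Fin n → ℕ) i = 0 := by
            rw [Pi.add_apply, hmi, Pi.single_eq_of_ne hli.symm, add_zero]
          have hj : (m + Pi.single l 1 : Fin n → ℕ) j = 0 := by
            rw [Pi.add_apply, hmj, Pi.single_eq_of_ne hlj.symm, add_zero]
          refine ⟨⟨m + Pi.single l 1, hi, hj, ?_⟩, ?_⟩
          · rw [hs]; abel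
          · have h := hnum (A + 1) (B + 1) (m + Pi.single l 1) (Nat.le_add_left _ _)
              (Nat.le_add_left _ _) hi hj
            rw [hs] at h
            intro h0
            apply h
            rw [← hw]
            rw [sub_sub] at h0
            exact sub_eq_zero.1 h0)
        (w := w) ⟨0, rfl, rfl, by simp⟩ ha ham
      rw [Set.image_pair, Ideal.mem_span_pair] at ht
      obtain ⟨c, d, hcd⟩ := ht
      have hta : t * a ∈ coarse 𝒜 (rl (AddMonoidHom.id (Fin r → ℤ)) z.ν) w := by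
        have h := SetLike.mul_mem_graded ht0 ha
        rwa [zero_add] at h
      have h1 := cp_of_mem _ hta
      rw [← hcd, cp_add, cp_mul_right _ (G.hom i), cp_mul_right _ (G.hom j), hcd] at h1
      have hwi : w - wt i = θ + A • wt i + (B + 1) • wt j := by
        rw [hw, add_smul, one_smul]; abel
      have hwj : w - wt j = θ + (A + 1) • wt i + B • wt j := by
        rw [hw, add_smul B 1, one_smul]; abel
      have h2 := ihA (B + 1) (cp (coarse 𝒜 (rl (AddMonoidHom.id (Fin r → ℤ)) z.ν)) (w - wt i) c)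
        (by rw [← hwi]; exact cp_mem _ _ _)
      have h3 := ihB (cp (coarse 𝒜 (rl (AddMonoidHom.id (Fin r → ℤ)) z.ν)) (w - wt j) d)
        (by rw [← hwj]; exact cp_mem _ _ _)
      refine loc_of_mul (t := t) (by rw [ht1]; exact one_ne_zero) ?_
      rw [← h1]
      refine Ideal.add_mem _ ?_ ?_
      · obtain ⟨s, hs, h4⟩ := h2
        obtain ⟨g, g', h5⟩ := mem_pp.1 h4
        refine ⟨s, hs, mem_pp.2 ⟨g, g' * u i, ?_⟩⟩
        rw [← mul_assoc, ← h5]
        ring
      · obtain ⟨s, hs, h4⟩ := h3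
        obtain ⟨g, g', h5⟩ := mem_pp.1 h4
        refine ⟨s, hs, mem_pp.2 ⟨g * u j, g', ?_⟩⟩
        rw [← mul_assoc, ← h5]
        ring

end num

section ext

variable {z : FP 𝒜} {n : ℕ} {u : Fin n → R} {wt : Fin n → Fin r → ℤ}

/-- from the local decomposition to a homogeneous one -/
theorem split_hom {i j : Fin n} {di dj : ℕ} (hu0 : u i ≠ 0) (hu1 : u j ≠ 0)
    (hui : u i ∈ 𝒜 (di, di • z.ν + wt i)) (huj : u j ∈ 𝒜 (dj, dj • z.ν + wt j)) {θ : Fin r → ℤ}
    {e e' : FractionRing R} (he : HK 𝒜 0 θ e) {N : ℕ} {k k' : ℕ} {s a : R}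
    (hs : s ∈ 𝒜 (k, k • z.ν)) (hs1 : z.q s ≠ 0)
    (ha : a ∈ 𝒜 (k', θ + N • ((di • z.ν + wt i) + (dj • z.ν + wt j)) + k • z.ν))
    (hk : k' = N * (di + dj) + k)
    (e1 : iK s * ((iK (u i) * iK (u j)) ^ N * (e - e')) = iK a)
    (hloc : a ∈ loc z.q (pp (u i) (u j) N N)) :
    ∃ x, HK 𝒜 0 θ x ∧ Rg z.q (iK (u i) ^ N * (x - e)) ∧ Rg z.q (iK (u j) ^ N * (x - e')) := by
  classical
  obtain ⟨t, ht, h⟩ := hloc
  obtain ⟨c, d, h1⟩ := mem_pp.1 h
  obtain ⟨⟨k0, m0⟩, hk0⟩ := exists_comp_ne (𝒜 := 𝒜) ht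
  set t1 : R := (DirectSum.decompose 𝒜 t (k0, m0) : R) with ht1
  have ht1m : t1 ∈ 𝒜 (k0, m0) := (DirectSum.decompose 𝒜 t (k0, m0)).2
  have hm0 : m0 = k0 • z.ν := z.fix k0 m0 _ ht1m hk0
  set ix : ℕ × (Fin r → ℤ) :=
    (k0, m0) + (k', θ + N • ((di • z.ν + wt i) + (dj • z.ν + wt j)) + k • z.ν) with hix
  have h2 : ((DirectSum.decompose 𝒜 (t * a)) ix : R) = t1 * a := by
    rw [hix]
    exact DirectSum.coe_decompose_mul_add_of_right_mem 𝒜 ha
  set F : R := (DirectSum.decompose 𝒜 (c * u i ^ N) ix : R) with hF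
  set F' : R := (DirectSum.decompose 𝒜 (d * u j ^ N) ix : R) with hF'
  have hF'm : F' ∈ 𝒜 ix := (DirectSum.decompose 𝒜 (d * u j ^ N) ix).2
  have h3 : t1 * a = F + F' := by
    rw [← h2, ← h1, DirectSum.decompose_add, DirectSum.add_apply, Submodule.coe_add]
  obtain ⟨f, hf⟩ : u i ^ N ∣ F :=
    dvd_component (𝒜 := 𝒜) (SetLike.pow_mem_graded N hui) (dvd_mul_left _ _) ix
  obtain ⟨f', hf'⟩ : u j ^ N ∣ F' :=
    dvd_component (𝒜 := 𝒜) (SetLike.pow_mem_graded N huj) (dvd_mul_left _ _) ix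
  have ht0 : t1 ≠ 0 := ne_zero_of_q hk0
  have hs0 : s ≠ 0 := ne_zero_of_q hs1
  have hK1 : iK t1 ≠ 0 := iK_ne_zero ht0
  have hK2 : iK s ≠ 0 := iK_ne_zero hs0
  have hK3 : iK (u i) ≠ 0 := iK_ne_zero hu0
  have hK4 : iK (u j) ≠ 0 := iK_ne_zero hu1
  have hK5 : iK (u i) ^ N ≠ 0 := pow_ne_zero _ hK3
  have hK6 : iK (u j) ^ N ≠ 0 := pow_ne_zero _ hK4
  set den : R := t1 * s * (u i * u j) ^ N with hden
  have hden0 : iK den ≠ 0 :=
    iK_ne_zero (mul_ne_zero (mul_ne_zero ht0 hs0) (pow_ne_zero _ (mul_ne_zero hu0 hu1)))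
  have hdenm : HK 𝒜 ((k0 + k + N * (di + dj) : ℕ) : ℤ)
      (m0 + k • z.ν + N • ((di • z.ν + wt i) + (dj • z.ν + wt j))) (iK den) := by
    refine HK.ofR ?_
    have h4 := SetLike.mul_mem_graded (SetLike.mul_mem_graded ht1m hs)
      (SetLike.pow_mem_graded N (SetLike.mul_mem_graded hui huj))
    have h5 : (k0, m0) + (k, k • z.ν) + N • ((di, di • z.ν + wt i) + (dj, dj • z.ν + wt j)) =
        (k0 + k + N * (di + dj), m0 + k • z.ν + N • ((di • z.ν + wt i) + (dj • z.ν + wt j))) := by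
      simp only [Prod.mk_add_mk, Prod.smul_mk, smul_eq_mul]
    rwa [h5] at h4
  have hF'K : HK 𝒜 ((k0 + k' : ℕ) : ℤ)
      (m0 + (θ + N • ((di • z.ν + wt i) + (dj • z.ν + wt j)) + k • z.ν)) (iK F') := by
    refine HK.ofR ?_
    have := hF'm
    rwa [hix, Prod.mk_add_mk] at this
  have hx : HK 𝒜 0 θ (iK F' * (iK den)⁻¹) := by
    refine (hF'K.mul (hdenm.inv hden0)).cast ?_ ?_
    · rw [hk]; push_cast; ring
    · abel
  refine ⟨e - iK F' * (iK den)⁻¹, he.sub hx, ?_, ?_⟩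
  · refine ⟨-f', t1 * s, by rw [map_mul]; exact mul_ne_zero hk0 hs1, ?_⟩
    have h4 : iK den = iK t1 * iK s * (iK (u i) ^ N * iK (u j) ^ N) := by
      rw [hden, iK_mul, iK_mul, iK_pow, iK_mul, mul_pow]
    rw [h4, hf', iK_mul, iK_mul, iK_pow, iK_neg]
    field_simp
    ring
  · refine ⟨f, t1 * s, by rw [map_mul]; exact mul_ne_zero hk0 hs1, ?_⟩
    have h4 : iK den = iK t1 * iK s * (iK (u i) ^ N * iK (u j) ^ N) := by
      rw [hden, iK_mul, iK_mul, iK_pow, iK_mul, mul_pow]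
    have h5 : iK t1 * (iK s * ((iK (u i) * iK (u j)) ^ N * (e - e'))) =
        iK (u i) ^ N * iK f + iK F' := by
      rw [e1, ← iK_mul, h3, iK_add, hf, iK_mul, iK_pow]
    rw [h4, iK_mul]
    have h6 : iK (u i) ^ N * (iK t1 * iK s * (iK (u j) ^ N *
        (e - iK F' * (iK t1 * iK s * (iK (u i) ^ N * iK (u j) ^ N))⁻¹ - e'))) =
        iK (u i) ^ N * iK f := by
      have h7 : iK (u i) ^ N * (iK t1 * iK s * (iK (u j) ^ N *
        (e - iK F' * (iK t1 * iK s * (iK (u i) ^ N * iK (u j) ^ N))⁻¹ - e'))) =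
        iK t1 * (iK s * ((iK (u i) * iK (u j)) ^ N * (e - e'))) - iK F' := by
        rw [mul_pow]
        field_simp
        ring
      rw [h7, h5, add_sub_cancel_right]
    exact mul_left_cancel₀ hK5 h6

/-- **(c)** the extension over the stratum `u i = u j = 0` -/
theorem ext (hX : IsTorusManifold 𝒜) (z : FP 𝒜) {n : ℕ} {u : Fin n → R}
    {wt : Fin n → Fin r → ℤ}
    (G : Gens (coarse 𝒜 (rl (AddMonoidHom.id (Fin r → ℤ)) z.ν)) z.q u wt)
    (hn : (n : ℕ∞) = (mx z.q).height) {i j : Fin n} (hij : i ≠ j) {di dj : ℕ}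
    (hui : u i ∈ 𝒜 (di, di • z.ν + wt i)) (huj : u j ∈ 𝒜 (dj, dj • z.ν + wt j)) {θ : Fin r → ℤ}
    {e e' : FractionRing R} (he : HK 𝒜 0 θ e) (he' : HK 𝒜 0 θ e') {N : ℕ}
    (hr : Rg z.q ((iK (u i) * iK (u j)) ^ N * (e - e')))
    (hcase : (∃ k, k ≠ i ∧ k ≠ j ∧ ∃ e'' : FractionRing R,
        Rg z.q ((iK (u i) * iK (u k)) ^ N * (e - e'')) ∧
        Rg z.q ((iK (u j) * iK (u k)) ^ N * (e' - e''))) ∨
      (∀ (k k' : ℕ) (m : Fin n → ℕ), 1 ≤ k → 1 ≤ k' → m i = 0 → m j = 0 →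
        θ + k • wt i + k' • wt j ≠ ∑ l, m l • wt l)) :
    ∃ x M, HK 𝒜 0 θ x ∧ Rg z.q (iK (u i) ^ M * (x - e)) ∧ Rg z.q (iK (u j) ^ M * (x - e')) := by
  have T := par_two hX G hn hij
  have hHK : HK 𝒜 ((N * (di + dj) : ℕ) : ℤ) (θ + N • ((di • z.ν + wt i) + (dj • z.ν + wt j)))
      ((iK (u i) * iK (u j)) ^ N * (e - e')) := by
    have h1 : HK 𝒜 ((N * (di + dj) : ℕ) : ℤ) (N • ((di • z.ν + wt i) + (dj • z.ν + wt j)))
        (iK ((u i * u j) ^ N)) := by
      refine HK.ofR ?_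
      have h4 := SetLike.pow_mem_graded N (SetLike.mul_mem_graded hui huj)
      have h5 : N • ((di, di • z.ν + wt i) + (dj, dj • z.ν + wt j)) =
          (N * (di + dj), N • ((di • z.ν + wt i) + (dj • z.ν + wt j))) := by
        simp only [Prod.mk_add_mk, Prod.smul_mk, smul_eq_mul]
      rwa [h5] at h4
    have h2 := h1.mul (he.sub he')
    rw [iK_pow, iK_mul] at h2
    exact h2.cast (add_zero _) (add_comm _ _)
  obtain ⟨k, k', s, a, hs, ha, hk, hs1, e1⟩ := hHK.exists_den hX z.nv z.fix hr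
  have hk2 : k' = N * (di + dj) + k := by exact_mod_cast hk
  have hloc : a ∈ loc z.q (pp (u i) (u j) N N) := by
    rcases hcase with ⟨l, hli, hlj, e'', h1, h2⟩ | hnum
    · obtain ⟨b, s', hs', h3⟩ := h1
      obtain ⟨b', s'', hs'', h4⟩ := h2
      have hP := par_prime hX G hn {i, j}
      have hl : u l ∉ loc z.q (Ideal.span {u i, u j}) := by
        have h := par_notMem hX G hn (J := {i, j}) (k := l) (by
          rintro (h | h)
          · exact hli h
          · exact hlj h)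
        rwa [Set.image_pair] at h
      rw [Set.image_pair] at hP
      have hlN : u l ^ N ∉ loc z.q (Ideal.span {u i, u j}) := fun h => hl (hP.mem_of_pow_mem N h)
      refine T.pow hlN N N (loc_of_mul (t := s' * s'') (by
        rw [map_mul]; exact mul_ne_zero hs' hs'') (le_loc (mem_pp.2
          ⟨-(s * s' * b'), s * s'' * b, ?_⟩)))
      apply iK_inj
      simp only [iK_mul, iK_pow, iK_neg, iK_add]
      rw [← e1, ← h3, ← h4]
      ring
    · refine num_case hX G hnum N N a (mem_coarse ha ?_)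
      rw [rl_apply, AddMonoidHom.id_apply, hk2]
      simp only [smul_add, add_smul, mul_smul, mul_add]
      abel
  obtain ⟨x, h1, h2, h3⟩ := split_hom T.x0 T.y0 hui huj he hs (by rw [hs1]; exact one_ne_zero)
    ha hk2 e1 hloc
  exact ⟨x, N, h1, h2, h3⟩

end ext

end Vale.Agent.P280.H690
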