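import Vale.Agent.P280.H690.LocExt

/-! P280, plan T7, row EXT (a): homogeneous parameters at a fixed point. -/

open DirectSum Vale.Agent.P280.T Vale.Agent.P280.H127 Vale.Agent.P280.N

namespace Vale.Agent.P280.H690

variable {r : ℕ} {R : Type} [CommRing R] [IsDomain R] [Algebra ℂ R]
  {𝒜 : ℕ × (Fin r → ℤ) → Submodule ℂ R} [GradedAlgebra 𝒜]

/-- **(a)** with the weights and coordinates -/
theorem hgens' (hX : IsTorusManifold 𝒜) (z : FP 𝒜) (hiso : ¬ z.Pi 0) :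
    ∃ (f : R) (n : ℕ) (u : Fin n → R) (wt : Fin n → Fin r → ℤ), f ∈ 𝒜 (1, z.ν) ∧ z.q f = 1 ∧
      Gens (coarse 𝒜 (rl (AddMonoidHom.id (Fin r → ℤ)) z.ν)) z.q u wt ∧
      (n : ℕ∞) = (mx z.q).height ∧
      (∀ i, wt i ≠ 0 → ∃ d, 0 < d ∧ Crd z (wt i) d (u i)) ∧ (∀ i, wt i = 0 → u i = f - 1) ∧
      (∃ i, wt i = 0 ∧ ∀ i', wt i' = 0 → i' = i) ∧ ∀ ψ, z.Pi ψ ↔ ∃ i, wt i ≠ 0 ∧ wt i = ψ := by
  classical
  have := noeth hX
  obtain ⟨f, N, U, wt, m, k, du, u, hf, hf1, G, hn, hinj, hk, hpi, hu, hmx⟩ :=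
    H63X.hcoords hX z hiso
  have hfix : Fix (coarse 𝒜 (rl (AddMonoidHom.id (Fin r → ℤ)) z.ν)) z.q := fix_of_isFixed z.fix
  have hf0 : f ∈ coarse 𝒜 (rl (AddMonoidHom.id (Fin r → ℤ)) z.ν) 0 :=
    mem_coarse hf (by rw [rl_apply, AddMonoidHom.id_apply, one_smul, sub_self])
  choose g hg using fun j (hj : wt j ≠ 0) => (hk j).2 hj
  have hkj : ∀ i, wt (k i) ≠ 0 := fun i => (hk _).1 ⟨i, rfl⟩
  have hgk : ∀ i, g (k i) (hkj i) = i := fun i => hinj (hg _ (hkj i))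
  set u' : Fin N → R := fun j => if h : wt j = 0 then f - 1 else f * u (g j h) with hu'
  have hu'0 : ∀ j, wt j = 0 → u' j = f - 1 := fun j hj => by rw [hu']; exact dif_pos hj
  have hu'1 : ∀ j (h : wt j ≠ 0), u' j = f * u (g j h) := fun j hj => by
    rw [hu']; exact dif_neg hj
  -- there is a weight zero
  have hz : ∃ j, wt j = 0 := by
    obtain ⟨v, hvT, hvu, hvw, hvs⟩ := G.exists_dual hfix hn.le
    obtain ⟨E, hE, hE'⟩ := exists_euler 𝒜 z.q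
    by_contra hcon
    push Not at hcon
    have h1 := congrArg (fun ξ : R →ₗ[ℂ] ℂ => ξ f) (hvs E hE)
    simp only [LinearMap.sum_apply, LinearMap.smul_apply] at h1
    rw [Finset.sum_eq_zero] at h1
    · rw [hE' 1 z.ν f hf, hf1] at h1
      simp at h1
    · intro i _
      rw [hvw i 0 (Ne.symm (hcon i)) f hf0, smul_zero]
  have hCrd : ∀ j, wt j ≠ 0 → ∃ d, 0 < d ∧ Crd z (wt j) d (u' j) := by
    intro j hj
    obtain ⟨h1, h2, t, ht, hw, ht0⟩ := hu (g j hj)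
    rw [hg j hj] at h1 hw
    rw [hu'1 j hj]
    refine ⟨1 + du (g j hj), Nat.lt_of_lt_of_le Nat.zero_lt_one (Nat.le_add_right _ _), ?_, ?_, t, ht,
      hw, ?_⟩
    · have h3 := SetLike.mul_mem_graded hf h1
      rw [Prod.mk_add_mk, ← add_assoc] at h3
      rw [add_smul, one_smul]
      exact h3
    · rw [map_mul, h2, mul_zero]
    · rw [ht, hf1, h2, zero_mul, add_zero, one_mul]
      exact ht0
  have hhom : ∀ j, u' j ∈ coarse 𝒜 (rl (AddMonoidHom.id (Fin r → ℤ)) z.ν) (wt j) := by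
    intro j
    by_cases hj : wt j = 0
    · rw [hu'0 j hj, hj]
      exact Submodule.sub_mem _ hf0 SetLike.GradedOne.one_mem
    · obtain ⟨d, -, h1, -⟩ := hCrd j hj
      refine mem_coarse h1 ?_
      rw [rl_apply, AddMonoidHom.id_apply, add_sub_cancel_left]
  have hzero : ∀ j, z.q (u' j) = 0 := by
    intro j
    by_cases hj : wt j = 0
    · rw [hu'0 j hj, map_sub, hf1, map_one, sub_self]
    · obtain ⟨d, -, -, h2, -⟩ := hCrd j hj
      exact h2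
  have hfm : f - 1 ∈ mx z.q := mem_mx.2 (by rw [map_sub, hf1, map_one, sub_self])
  have G' : Gens (coarse 𝒜 (rl (AddMonoidHom.id (Fin r → ℤ)) z.ν)) z.q u' wt := by
    refine Gens.of_cotangent hfix hhom hzero (hmx.trans ?_)
    rw [smul_eq_mul, ← pow_two]
    refine sup_le (sup_le ?_ ?_) le_sup_right
    · rw [Ideal.span_le]
      rintro _ ⟨i, rfl⟩
      have e : u i = u' (k i) - (f - 1) * u i := by
        rw [hu'1 _ (hkj i), hgk i]
        ring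
      rw [e]
      refine Ideal.sub_mem _ (Ideal.mem_sup_left (Ideal.subset_span ⟨_, rfl⟩))
        (Ideal.mem_sup_right ?_)
      rw [pow_two]
      exact Ideal.mul_mem_mul hfm (mem_mx.2 (hu i).2.1)
    · rw [Ideal.span_le]
      rintro _ rfl
      obtain ⟨j, hj⟩ := hz
      rw [← hu'0 j hj]
      exact Ideal.mem_sup_left (Ideal.subset_span ⟨_, rfl⟩)
  refine ⟨f, N, u', wt, hf, hf1, G', hn, hCrd, hu'0, ?_, fun ψ => ?_⟩
  · obtain ⟨i, hi⟩ := hz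
    refine ⟨i, hi, fun i' hi' => ?_⟩
    by_contra hne
    refine par_notMem hX G' hn (J := {i}) (k := i') hne ?_
    rw [Set.image_singleton, hu'0 i' hi', hu'0 i hi]
    exact le_loc (Ideal.subset_span rfl)
  · rw [hpi]
    constructor
    · rintro ⟨i, hi⟩
      exact ⟨k i, hkj i, hi⟩
    · rintro ⟨j, hj, hj'⟩
      exact ⟨g j hj, by rw [hg j hj]; exact hj'⟩

/-- **(a)** -/
theorem hgens (H : H63X.Hyp 𝒜) (z : FP 𝒜) :
    ∃ (n : ℕ) (u : Fin n → R) (wt : Fin n → Fin r → ℤ),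
      Gens (coarse 𝒜 (rl (AddMonoidHom.id (Fin r → ℤ)) z.ν)) z.q u wt ∧
      (n : ℕ∞) = (mx z.q).height ∧
      ∀ i, wt i ≠ 0 → ∃ d, 0 < d ∧ u i ∈ 𝒜 (d, d • z.ν + wt i) := by
  obtain ⟨f, n, u, wt, -, -, G, hn, hC, -, -, -⟩ := hgens' H.hX z (H.iso _ _ z.nv z.fix)
  refine ⟨n, u, wt, G, hn, fun i hi => ?_⟩
  obtain ⟨d, hd, h1, -⟩ := hC i hi
  exact ⟨d, hd, h1⟩

end Vale.Agent.P280.H690
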