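import Vale.Agent.P280.H11.PrimeSpan
import Vale.Agent.P280.H83.Api2
import Vale.Agent.P280.H127.Dual

/-! P280, plan T7, row EXT: ideals localised at a fixed point; powers of two parameters. -/

open DirectSum Vale.Agent.P280.T Vale.Agent.P280.H127 Vale.Agent.P280.N

namespace Vale.Agent.P280.H690

section

variable {R : Type} [CommRing R] [Algebra ℂ R]

/-- The elements which lie in `I` after localisation at `q`. -/
def loc (q : R →ₐ[ℂ] ℂ) (I : Ideal R) : Ideal R where
  carrier := {a | ∃ t, q t ≠ 0 ∧ t * a ∈ I}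
  zero_mem' := ⟨1, by rw [map_one]; exact one_ne_zero, by rw [mul_zero]; exact I.zero_mem⟩
  add_mem' := by
    rintro a b ⟨t, ht, ha⟩ ⟨t', ht', hb⟩
    refine ⟨t * t', by rw [map_mul]; exact mul_ne_zero ht ht', ?_⟩
    have e : t * t' * (a + b) = t' * (t * a) + t * (t' * b) := by ring
    rw [e]
    exact I.add_mem (I.mul_mem_left _ ha) (I.mul_mem_left _ hb)
  smul_mem' := by
    rintro c a ⟨t, ht, ha⟩
    refine ⟨t, ht, ?_⟩
    have e : t * (c • a) = c * (t * a) := by rw [smul_eq_mul]; ring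
    rw [e]
    exact I.mul_mem_left _ ha

variable {q : R →ₐ[ℂ] ℂ} {I J : Ideal R}

theorem mem_loc {a : R} : a ∈ loc q I ↔ ∃ t, q t ≠ 0 ∧ t * a ∈ I := Iff.rfl

theorem le_loc : I ≤ loc q I := fun a ha =>
  ⟨1, by rw [map_one]; exact one_ne_zero, by rwa [one_mul]⟩

theorem loc_mono (h : I ≤ J) : loc q I ≤ loc q J := fun _ ⟨t, ht, ha⟩ => ⟨t, ht, h ha⟩

theorem loc_of_mul {t a : R} (ht : q t ≠ 0) (h : t * a ∈ loc q I) : a ∈ loc q I := by
  obtain ⟨t', ht', h'⟩ := h
  exact ⟨t' * t, by rw [map_mul]; exact mul_ne_zero ht' ht, by rwa [mul_assoc]⟩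

/-- normal form of a denominator -/
theorem exists_one {a : R} (h : a ∈ loc q I) : ∃ t, q t = 1 ∧ t * a ∈ I := by
  obtain ⟨t, ht, ha⟩ := h
  refine ⟨algebraMap ℂ R (q t)⁻¹ * t, ?_, ?_⟩
  · rw [map_mul, AlgHom.commutes]
    exact inv_mul_cancel₀ ht
  · rw [mul_assoc]
    exact I.mul_mem_left _ ha

/-- The ideal of `x ^ A`, `y ^ B`. -/
def pp (x y : R) (A B : ℕ) : Ideal R := Ideal.span {x ^ A, y ^ B}

omit [Algebra ℂ R] in
theorem mem_pp {x y : R} {A B : ℕ} {a : R} :
    a ∈ pp x y A B ↔ ∃ c d, c * x ^ A + d * y ^ B = a := Ideal.mem_span_pair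

theorem pp_mono {x y : R} {A B A' B' : ℕ} (hA : A' ≤ A) (hB : B' ≤ B) : pp x y A B ≤ pp x y A' B' := by
  intro a ha
  obtain ⟨c, d, rfl⟩ := mem_pp.1 ha
  refine mem_pp.2 ⟨c * x ^ (A - A'), d * y ^ (B - B'), ?_⟩
  rw [mul_assoc, mul_assoc, ← pow_add, ← pow_add, Nat.sub_add_cancel hA, Nat.sub_add_cancel hB]

variable [IsDomain R]

/-- powers of a local prime -/
theorem pow_loc {x y : R} (hx0 : x ≠ 0) (hP : (loc q (Ideal.span {x})).IsPrime)
    (hy : y ∉ loc q (Ideal.span {x})) {N : ℕ} {a : R}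
    (h : y * a ∈ loc q (Ideal.span {x ^ N})) : a ∈ loc q (Ideal.span {x ^ N}) := by
  induction N generalizing a with
  | zero =>
    refine le_loc ?_
    rw [pow_zero, Ideal.span_singleton_one]
    trivial
  | succ N ih =>
    obtain ⟨t, ht, h1⟩ := h
    obtain ⟨c, hc⟩ := Ideal.mem_span_singleton'.1 h1
    have h2 : y * a ∈ loc q (Ideal.span {x}) := by
      refine ⟨t, ht, ?_⟩
      rw [← hc, pow_succ, ← mul_assoc]
      exact Ideal.mul_mem_left _ _ (Ideal.subset_span rfl)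
    obtain ⟨t', ht', h3⟩ := (hP.mem_or_mem h2).resolve_left hy
    obtain ⟨a', ha'⟩ := Ideal.mem_span_singleton'.1 h3
    have h4 : t * (y * a') = t' * c * x ^ N := by
      refine mul_right_cancel₀ hx0 ?_
      calc t * (y * a') * x = t * (y * (a' * x)) := by ring
        _ = t' * (t * (y * a)) := by rw [ha']; ring
        _ = t' * c * x ^ N * x := by rw [← hc]; ring
    have h5 : a' ∈ loc q (Ideal.span {x ^ N}) := by
      refine ih ⟨t, ht, ?_⟩
      rw [h4]
      exact Ideal.mul_mem_left _ _ (Ideal.subset_span rfl)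
    obtain ⟨t'', ht'', h6⟩ := h5
    obtain ⟨c', hc'⟩ := Ideal.mem_span_singleton'.1 h6
    refine ⟨t'' * t', by rw [map_mul]; exact mul_ne_zero ht'' ht', ?_⟩
    have e : t'' * t' * a = c' * x ^ (N + 1) := by
      calc t'' * t' * a = t'' * (t' * a) := by ring
        _ = t'' * a' * x := by rw [← ha']; ring
        _ = c' * x ^ (N + 1) := by rw [← hc']; ring
    rw [e]
    exact Ideal.mul_mem_left _ _ (Ideal.subset_span rfl)

/-- cancellation of a power modulo powers -/
theorem pow_loc' {x y : R} (hx0 : x ≠ 0) (hP : (loc q (Ideal.span {x})).IsPrime)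
    (hy : y ∉ loc q (Ideal.span {x})) {N M : ℕ} {a : R}
    (h : y ^ M * a ∈ loc q (Ideal.span {x ^ N})) : a ∈ loc q (Ideal.span {x ^ N}) := by
  refine pow_loc hx0 hP (y := y ^ M) (fun h1 => hy ?_) h
  exact hP.mem_of_pow_mem M h1

/-- two local parameters: the data -/
structure Two (q : R →ₐ[ℂ] ℂ) (x y : R) : Prop where
  x0 : x ≠ 0
  y0 : y ≠ 0
  px : (loc q (Ideal.span {x})).IsPrime
  py : (loc q (Ideal.span {y})).IsPrime
  pxy : (loc q (Ideal.span {x, y})).IsPrime
  xy : x ∉ loc q (Ideal.span {y})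
  yx : y ∉ loc q (Ideal.span {x})

omit [IsDomain R] in
/-- an element outside `(x, y)` is no zero divisor modulo `(x, y ^ B)` -/
theorem Two.one {x y : R} (T : Two q x y) {z : R} (hz : z ∉ loc q (Ideal.span {x, y})) (B : ℕ) {a : R}
    (h : z * a ∈ loc q (pp x y 1 B)) : a ∈ loc q (pp x y 1 B) := by
  induction B generalizing a with
  | zero =>
    refine le_loc (mem_pp.2 ⟨0, a, ?_⟩)
    rw [zero_mul, pow_zero, mul_one, zero_add]
  | succ B ih =>
    have h1 : a ∈ loc q (pp x y 1 B) :=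
      ih (loc_mono (pp_mono le_rfl (Nat.le_succ B)) h)
    obtain ⟨t, ht, h2⟩ := h1
    obtain ⟨c, d, h3⟩ := mem_pp.1 h2
    refine loc_of_mul ht ?_
    rw [← h3]
    refine Ideal.add_mem _ (Ideal.mul_mem_left _ _ (le_loc (Ideal.subset_span (Or.inl rfl)))) ?_
    -- `z d y ^ B` is in the ideal
    have h4 : z * (d * y ^ B) ∈ loc q (pp x y 1 (B + 1)) := by
      have e : z * (d * y ^ B) = t * (z * a) - z * c * x ^ 1 := by
        have : z * (c * x ^ 1 + d * y ^ B) = z * (t * a) := by rw [h3]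
        linear_combination this
      rw [e]
      exact Ideal.sub_mem _ (Ideal.mul_mem_left _ _ h)
        (Ideal.mul_mem_left _ _ (le_loc (Ideal.subset_span (Or.inl rfl))))
    obtain ⟨t', ht', h5⟩ := h4
    obtain ⟨e, f, h6⟩ := mem_pp.1 h5
    have h7 : y ^ B * (t' * (z * d) - f * y) ∈ loc q (Ideal.span {x}) := by
      refine le_loc (Ideal.mem_span_singleton'.2 ⟨e, ?_⟩)
      linear_combination h6
    have h8 : t' * (z * d) - f * y ∈ loc q (Ideal.span {x}) :=
      (T.px.mem_or_mem h7).resolve_left fun h => T.yx (T.px.mem_of_pow_mem B h)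
    have h9 : t' * (z * d) ∈ loc q (Ideal.span {x, y}) := by
      have e : t' * (z * d) = (t' * (z * d) - f * y) + f * y := by ring
      rw [e]
      exact Ideal.add_mem _ (loc_mono (Ideal.span_mono (by
        rintro _ rfl; exact Or.inl rfl)) h8)
        (Ideal.mul_mem_left _ _ (le_loc (Ideal.subset_span (Or.inr rfl))))
    obtain ⟨s, hs, h10⟩ := (T.pxy.mem_or_mem (loc_of_mul ht' h9)).resolve_left hz
    obtain ⟨g, g', h11⟩ := Ideal.mem_span_pair.1 h10
    refine ⟨s, hs, mem_pp.2 ⟨g * y ^ B, g', ?_⟩⟩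
    rw [← mul_assoc, ← h11]
    ring

/-- an element outside `(x, y)` is no zero divisor modulo `(x ^ A, y ^ B)` -/
theorem Two.pow {x y : R} (T : Two q x y) {z : R} (hz : z ∉ loc q (Ideal.span {x, y})) (A B : ℕ) {a : R}
    (h : z * a ∈ loc q (pp x y A B)) : a ∈ loc q (pp x y A B) := by
  induction A generalizing a with
  | zero =>
    refine le_loc (mem_pp.2 ⟨a, 0, ?_⟩)
    rw [zero_mul, pow_zero, mul_one, add_zero]
  | succ A ih =>
    obtain ⟨t, ht, h2⟩ := ih (loc_mono (pp_mono (Nat.le_succ A) le_rfl) h)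
    obtain ⟨c, d, h3⟩ := mem_pp.1 h2
    refine loc_of_mul ht ?_
    rw [← h3]
    refine Ideal.add_mem _ ?_ (Ideal.mul_mem_left _ _ (le_loc (Ideal.subset_span (Or.inr rfl))))
    have h4 : z * (c * x ^ A) ∈ loc q (pp x y (A + 1) B) := by
      have e : z * (c * x ^ A) = t * (z * a) - z * d * y ^ B := by
        have : z * (c * x ^ A + d * y ^ B) = z * (t * a) := by rw [h3]
        linear_combination this
      rw [e]
      exact Ideal.sub_mem _ (Ideal.mul_mem_left _ _ h)
        (Ideal.mul_mem_left _ _ (le_loc (Ideal.subset_span (Or.inr rfl))))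
    obtain ⟨t', ht', h5⟩ := h4
    obtain ⟨e, f, h6⟩ := mem_pp.1 h5
    have h7 : x ^ A * (t' * (z * c) - e * x) ∈ loc q (Ideal.span {y ^ B}) := by
      refine le_loc (Ideal.mem_span_singleton'.2 ⟨f, ?_⟩)
      linear_combination h6
    have h8 := pow_loc' T.y0 T.py T.xy h7
    have h9 : t' * (z * c) ∈ loc q (pp x y 1 B) := by
      have e' : t' * (z * c) = (t' * (z * c) - e * x) + e * x ^ 1 := by ring
      rw [e']
      exact Ideal.add_mem _ (loc_mono (Ideal.span_mono (by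
        rintro _ rfl; exact Or.inr rfl)) h8)
        (Ideal.mul_mem_left _ _ (le_loc (Ideal.subset_span (Or.inl rfl))))
    obtain ⟨s, hs, h10⟩ := T.one hz B (loc_of_mul ht' h9)
    obtain ⟨g, g', h11⟩ := mem_pp.1 h10
    refine ⟨s, hs, mem_pp.2 ⟨g, g' * x ^ A, ?_⟩⟩
    rw [← mul_assoc, ← h11]
    ring

end

end Vale.Agent.P280.H690
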