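import Vale.Agent.P280.H690.Mix4

/-! P280, T7, helper690: (MX), mixing. -/

open DirectSum Vale.Agent.P280.T Vale.Agent.P280.H127

namespace Vale.Agent.P280.H690

open Vale.Agent.P280.N Vale.Agent.P280.H490 Vale.Agent.P280.H143 Vale.Agent.P280.H60

variable {r : ℕ} {R : Type} [CommRing R] [IsDomain R] [Algebra ℂ R]
  {𝒜 : ℕ × (Fin r → ℤ) → Submodule ℂ R} [GradedAlgebra 𝒜]

/-- **(MX), mixing.** `a = 2 e` is a root whose fields vanish at `z`; `e` and `-e` are tangent
weights of multiplicity one at `z` which are not the values of fields of weight `e`, and the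
tangent spaces at the fixed points below `z` in the direction `e` are generated by fields. Then
there is no tangent weight `x` at `z` with `β x = -N` for which `2 x + a` is a vertex,
`-(x + e)` is not a tangent weight at `z` and `x`, `-x`, `x + a` are liftable of multiplicity one
everywhere. -/
theorem mix (H : H63X.Hyp 𝒜) {N : ℤ} (hN : 0 < N) {a : Fin r → ℤ} (ha : Vx 𝒜 a)
    {β : (Fin r → ℤ) →+ ℤ} {α : ℂ} {E F : Derivation ℂ R R} (hR : Rt 𝒜 N a β α E F)
    (z : FP 𝒜) (hE0 : ∀ h, z.q (E h) = 0) (hF0 : ∀ h, z.q (F h) = 0) {e : Fin r → ℤ}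
    (he : 2 • e = a) (hpe : z.Pi e) (hpe' : z.Pi (-e)) (hoe : One 𝒜 z e) (hoe' : One 𝒜 z (-e))
    (hNe : Nf 𝒜 z e)
    (hlow : ∀ (y : FP 𝒜) (n : ℕ), 1 ≤ n → z.ν = y.ν - n • (-e) → y.Pi e → ∀ w, Lf 𝒜 y w)
    {x : Fin r → ℤ} (hx : z.Pi x) (hβx : β x = -N) (hxe : x ≠ -e) (hc : Vx 𝒜 (2 • x + a))
    (hno : ¬ z.Pi (-(x + e)))
    (hBd : ∀ (y : FP 𝒜) (w : Fin r → ℤ), y.Pi w → (w = x ∨ w = -x ∨ w = x + a) →
      Lf 𝒜 y w ∧ One 𝒜 y w) : False := by
  classical
  have hX := H.hX
  have hNC : (N : ℂ) ≠ 0 := by exact_mod_cast hN.ne'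
  have hβa : β a = 2 * N := hR.two
  have hβe : β e = N := by
    have h1 := hβa
    rw [← he, map_nsmul, nsmul_eq_mul] at h1
    push_cast at h1
    omega
  have he0 : e ≠ 0 := by
    rintro rfl
    rw [map_zero] at hβe
    omega
  have hx0 : x ≠ 0 := by
    rintro rfl
    rw [map_zero] at hβx
    omega
  have hxe' : x + e ≠ 0 := fun h => hxe (eq_neg_of_add_eq_zero_left h)
  -- the root is not a multiple of `x`, etc.
  have hdbl : ∀ w : Fin r → ℤ, w + w = -(e + e) → w = -e := by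
    intro w hw
    funext i
    have h1 := congrFun hw i
    simp only [Pi.add_apply, Pi.neg_apply] at h1 ⊢
    omega
  have hmul : ∀ (y : FP 𝒜) (k : ℕ), 2 ≤ k → ¬ y.Pi (k • x) ∧ ¬ y.Pi (-(k • x)) := by
    intro y k hk
    have hk' : (2 : ℤ) ≤ k := by exact_mod_cast hk
    have h1 : β (k • x) = -(k * N) := by
      rw [map_nsmul, hβx, nsmul_eq_mul]
      ring
    have h2 : 2 * N ≤ k * N := mul_le_mul_of_nonneg_right hk' hN.le
    have key : -(k • x) = a → False := by
      intro h3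
      have h4 : (k : ℤ) * N = 2 * N := by
        rw [← hβa, ← h3, map_neg, h1, neg_neg]
      have h5 : (k : ℤ) = 2 := mul_right_cancel₀ hN.ne' h4
      have h6 : k = 2 := by exact_mod_cast h5
      apply hxe
      apply hdbl
      rw [h6, ← he, two_smul, two_smul] at h3
      rw [← h3, neg_neg]
    constructor
    · intro h3
      have h4 := (rt_eq H hN ha hR ⟨y, h3⟩).2 (by omega)
      exact key (by rw [h4, neg_neg])
    · intro h3
      have h4 := (rt_eq H hN ha hR ⟨y, h3⟩).1 (by rw [map_neg, h1]; omega)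
      exact key h4
  obtain ⟨y, n, φ, D, G, hφ, hDf, hGf, hGφ, hDφ, hDz⟩ := curve_pair H hx
    (fun y w hy hw => hBd y w hy (by
      rcases hw with h | h
      · exact Or.inl h
      · exact Or.inr (Or.inl h))) hmul
  obtain ⟨Eu, hEu⟩ := H587.exists_euler 𝒜
  obtain ⟨hG0, hH0, hDH, hHm⟩ := pair_vals hφ hDf hGf hEu hGφ hDφ
  obtain ⟨α', b', hb'⟩ := H.tor _ hHm
  have T : Tor 𝒜 (⁅D, G⁆ - (n : ℂ) • Eu) α' b' := ⟨hHm, hb'⟩
  have hHf : H93.IsHField 𝒜 0 (⁅D, G⁆ - (n : ℂ) • Eu) := by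
    intro d m h hh
    rw [sub_zero]
    exact hHm d m h hh
  -- the eigenvalues
  have hs : b' x = -2 := by
    obtain ⟨h1, hh1⟩ := hDz
    exact (T.eig_tan hX hH0 (H224.hasWeight_value z.fix hDf)
      (fun h => hh1 (LinearMap.congr_fun h h1)) hDH).symm
  have hba := ba_ne H hN ha hR z hE0 hF0 hβx hc (fun h => (hBd z _ h (Or.inr (Or.inr rfl))).2)
    hDf hGf hEu hDz hH0 T hs
  have hbe : b' e ≠ 0 := by
    intro h
    apply hba
    rw [← he, map_nsmul, h, smul_zero]
  -- the tangent vectors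
  obtain ⟨v, hv, hvw, hv0⟩ := pi_ne hpe
  obtain ⟨τ, hτ, hτw, hτ0⟩ := pi_ne hpe'
  have hvH : ∀ h, v ((⁅D, G⁆ - (n : ℂ) • Eu) h) = b' e * v h := by
    obtain ⟨μ, hμ⟩ := one_smul_of hoe hv hvw hv0 (tan_comp hv hH0)
      (by
        have h1 := wt_comp hvw hHf
        rwa [add_zero] at h1)
    have h1 := T.eig_tan hX hH0 hvw hv0 hμ
    rw [← h1]
    exact hμ
  -- the lift
  obtain ⟨u, hu, huw, hvG, huG⟩ := exists_u H hφ hDf hGf hEu hGφ hDφ (fun k hk => by
      have hk' : (1 : ℤ) ≤ k := by exact_mod_cast hk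
      have h1 : β (e + k • -x) = N + k * N := by
        rw [map_add, hβe, map_nsmul, map_neg, hβx, neg_neg, nsmul_eq_mul]
      have h2 : 1 * N ≤ k * N := mul_le_mul_of_nonneg_right hk' hN.le
      refine ⟨fun h3 => ?_, fun h3 => ?_⟩
      · rw [h3, map_zero] at h1
        omega
      · have h4 := (rt_eq H hN ha hR ⟨y, h3⟩).1 (by omega)
        rw [h4, hβa] at h1
        have h5 : (k : ℤ) * N = 1 * N := by omega
        have h6 : (k : ℤ) = 1 := mul_right_cancel₀ hN.ne' h5
        have h7 : k = 1 := by exact_mod_cast h6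
        apply hxe
        rw [h7, one_smul, ← he, two_smul] at h4
        have h8 := add_left_cancel h4
        rw [← h8, neg_neg]) hv hvw
  -- the vector `u` in terms of fields
  obtain ⟨D0, D1, hD0, hD1, hD1z, hu2⟩ := f2_dir H z (neg_ne_zero.2 he0) hτ hτw hτ0 (χ := x + e)
    (fun y' n' hn' hν' hpi' => by
      rw [neg_neg] at hpi'
      refine ⟨fun k _ => hlow y' n' hn' hν' hpi' _, fun k hk => ?_⟩
      rw [neg_neg]
      have hk' : (2 : ℤ) ≤ k := by exact_mod_cast hk
      have h1 : β (x + e + k • e) = k * N := by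
        rw [map_add, map_add, hβx, hβe, map_nsmul, hβe, nsmul_eq_mul]
        ring
      have h2 : 2 * N ≤ k * N := mul_le_mul_of_nonneg_right hk' hN.le
      refine ⟨fun h3 => ?_, fun h3 => ?_⟩
      · rw [h3, map_zero] at h1
        omega
      · have h4 := (rt_eq H hN ha hR ⟨y', h3⟩).1 (by omega)
        rw [h4, hβa] at h1
        have h6 : (k : ℤ) = 2 := (mul_right_cancel₀ hN.ne' h1).symm
        have h7 : k = 2 := by exact_mod_cast h6
        apply hxe'
        rw [h7, ← he] at h4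
        exact add_eq_right.1 h4) hu huw
  have hD1' : H93.IsHField 𝒜 (x + a) D1 := isHField_of_eq hD1 (by
    rw [← he, two_smul, sub_neg_eq_add, add_assoc])
  have hK : ∀ h, τ (D1 (G h)) = -(b' e * v h) := by
    intro h
    have h1 := huG h
    rw [hvH, hu2] at h1
    have h2 : z.q (D0 (G h)) = 0 := by
      have h3 := hNe ⁅D0, G⁆ (isHField_of_eq (hD0.lie hGf) (by abel)) h
      rw [Derivation.commutator_apply, map_sub, hG0, sub_zero] at h3
      exact h3
    rw [h2, zero_add] at h1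
    exact h1
  -- the root
  have hν := rt_nu H hR z hE0 hF0
  have hvE : ∀ h, v (E h) = 0 := by
    have h1 := tan_comp hv hE0
    have h2 := wt_comp hvw hR.hE
    have h3 : β (e + a) = 3 * N := by
      rw [map_add, hβe, hβa]
      ring
    have h4 : e + a ≠ 0 := by
      intro h
      rw [h, map_zero] at h3
      omega
    have h5 := zero_of_not_pi h4 (fun h => by
      have := rt_bd H hN ha hR ⟨z, h⟩
      omega) h1 h2
    exact fun h => LinearMap.congr_fun h5 h
  obtain ⟨c', hc'⟩ := one_smul_of hoe' hτ hτw hτ0 (tan_comp hv hF0) (by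
    have h1 := wt_comp hvw hR.hF
    have h2 : e + -a = -e := by
      rw [← he, two_smul]
      abel
    rwa [h2] at h1)
  have hvF : ∀ h, v (F h) = c' * τ h := hc'
  have hc0 : c' ≠ 0 := by
    rintro rfl
    apply hv0
    apply linearMap_ext_graded 𝒜
    rintro ⟨d, m⟩ h hh
    rw [LinearMap.zero_apply]
    by_contra hne
    have h1 := congrArg v (hR.br d m h hh)
    rw [map_sub, hvE, hvF, zero_mul, sub_zero, map_neg, map_smul, smul_eq_mul] at h1
    have h2 := (mul_eq_zero.1 (neg_eq_zero.1 h1.symm)).resolve_right hne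
    rw [hvw d m h hh hne, map_add, hβe, map_nsmul, nsmul_eq_mul] at h2
    apply hNC
    push_cast at h2
    linear_combination h2 - (d : ℂ) * hν
  -- the field `W`
  have hD2 : H93.IsHField 𝒜 x ⁅F, D1⁆ := isHField_of_eq (hR.hF.lie hD1') (by abel)
  have hW0 : H93.IsHField 𝒜 0 ⁅G, ⁅F, D1⁆⁆ := isHField_of_eq (hGf.lie hD2) (by abel)
  have hWm : ∀ d m, ∀ h ∈ 𝒜 (d, m), ⁅G, ⁅F, D1⁆⁆ h ∈ 𝒜 (d, m) := by
    intro d m h hh
    have h1 := hW0 d m h hh
    rwa [sub_zero] at h1
  have hD2z : ∀ h, z.q (⁅F, D1⁆ h) = 0 := by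
    intro h
    rw [Derivation.commutator_apply, map_sub, hF0, hD1z, sub_zero]
  have hWz : ∀ h, z.q (⁅G, ⁅F, D1⁆⁆ h) = 0 := by
    intro h
    rw [Derivation.commutator_apply, map_sub, hG0, hD2z, sub_zero]
  obtain ⟨α2, b2, hb2⟩ := H.tor _ hWm
  have T2 : Tor 𝒜 ⁅G, ⁅F, D1⁆⁆ α2 b2 := ⟨hWm, hb2⟩
  have hvD1 : ∀ h, v (D1 h) = 0 := by
    have h1 := tan_comp hv hD1z
    have h2 := wt_comp hvw hD1'
    have h3 : β (e + (x + a)) = 2 * N := by
      rw [map_add, map_add, hβe, hβx, hβa]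
      ring
    have h4 : e + (x + a) ≠ 0 := by
      intro h
      rw [h, map_zero] at h3
      omega
    have h5 := zero_of_not_pi h4 (fun h => by
      have h6 := (rt_eq H hN ha hR ⟨z, h⟩).1 (by omega)
      apply hxe'
      rw [← add_assoc] at h6
      rw [add_comm x e]
      exact add_eq_right.1 h6) h1 h2
    exact fun h => LinearMap.congr_fun h5 h
  have hvD2 : ∀ h, v (⁅F, D1⁆ h) = c' * τ (D1 h) := by
    intro h
    rw [Derivation.commutator_apply, map_sub, hvD1, sub_zero, hvF]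
  have hvW : ∀ h, v (⁅G, ⁅F, D1⁆⁆ h) = (c' * b' e) * v h := by
    intro h
    rw [Derivation.commutator_apply, map_sub, hvG, hvD2, hK]
    ring
  have hτG : ∀ h, τ (G h) = 0 := by
    have h1 := tan_comp hτ hG0
    have h2 := wt_comp hτw hGf
    have h3 : -e + -x = -(x + e) := by abel
    rw [h3] at h2
    have h5 := zero_of_not_pi (neg_ne_zero.2 hxe') hno h1 h2
    exact fun h => LinearMap.congr_fun h5 h
  have hτD2 : ∀ h, τ (⁅F, D1⁆ h) = 0 := by
    have h1 := tan_comp hτ hD2z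
    have h2 := wt_comp hτw hD2
    have h3 : β (-e + x) = -(2 * N) := by
      rw [map_add, map_neg, hβe, hβx]
      ring
    have h4 : -e + x ≠ 0 := by
      intro h
      rw [h, map_zero] at h3
      omega
    have h5 := zero_of_not_pi h4 (fun h => by
      have h6 := (rt_eq H hN ha hR ⟨z, h⟩).2 (by omega)
      apply hxe
      rw [← he, two_smul, neg_add] at h6
      exact add_left_cancel h6) h1 h2
    exact fun h => LinearMap.congr_fun h5 h
  have hτW : ∀ h, τ (⁅G, ⁅F, D1⁆⁆ h) = 0 * τ h := by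
    intro h
    rw [Derivation.commutator_apply, map_sub, hτG, hτD2, sub_zero, zero_mul]
  have h1 := T2.eig_tan hX hWz hvw hv0 hvW
  have h2 := T2.eig_tan hX hWz hτw hτ0 hτW
  rw [map_neg, eq_comm, neg_eq_zero] at h2
  rw [h2] at h1
  exact mul_ne_zero hc0 hbe h1

end Vale.Agent.P280.H690
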