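import Vale.Agent.P280.H690.A1
import Vale.Agent.P280.H63X.Along
import Vale.Agent.P280.H63X.C04

/-! P280, T7, helper690: mixing, part 1: eigenvalues of fields of weight zero, and the pair of
fields along a `T`-curve. -/

open DirectSum Vale.Agent.P280.T Vale.Agent.P280.H127

namespace Vale.Agent.P280.H690

open Vale.Agent.P280.N Vale.Agent.P280.H490 Vale.Agent.P280.H143 Vale.Agent.P280.H60

/-- The generalised eigenvalues of a field of weight zero. -/
structure Tor {r : ℕ} {R : Type} [CommRing R] [Algebra ℂ R]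
    (𝒜 : ℕ × (Fin r → ℤ) → Submodule ℂ R) (D : Derivation ℂ R R) (α : ℂ)
    (β : (Fin r → ℤ) →+ ℂ) : Prop where
  hom : ∀ d m, ∀ h ∈ 𝒜 (d, m), D h ∈ 𝒜 (d, m)
  nil : ∀ d m, ∀ h ∈ 𝒜 (d, m), ∃ n : ℕ,
    (fun x : R => D x - ((d : ℂ) * α + β m) • x)^[n] h = 0

section
variable {r : ℕ} {R : Type} [CommRing R] [Algebra ℂ R]
  {𝒜 : ℕ × (Fin r → ℤ) → Submodule ℂ R} {D : Derivation ℂ R R} {α : ℂ} {β : (Fin r → ℤ) →+ ℂ}

theorem iter_val {D : R → R} {t : R →ₗ[ℂ] ℂ} {μ c : ℂ} (ht : ∀ x, t (D x) = μ * t x) (n : ℕ) :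
    ∀ x, t ((fun x : R => D x - c • x)^[n] x) = (μ - c) ^ n * t x := by
  induction n with
  | zero => intro x; simp
  | succ n ih =>
    intro x
    rw [Function.iterate_succ_apply, ih, map_sub, map_smul, ht, smul_eq_mul]
    ring

theorem eig_of_iter {D : R → R} {t : R →ₗ[ℂ] ℂ} {μ c : ℂ} (ht : ∀ x, t (D x) = μ * t x) {n : ℕ}
    {x : R} (hx : (fun x : R => D x - c • x)^[n] x = 0) (hne : t x ≠ 0) : μ = c := by
  have h1 := iter_val ht n x (c := c)
  rw [hx, map_zero] at h1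
  have h2 := (mul_eq_zero.1 h1.symm).resolve_right hne
  by_contra h3
  exact pow_ne_zero n (sub_ne_zero.2 h3) h2

/-- The field vanishes at `z`. -/
theorem Tor.nu [GradedAlgebra 𝒜] (T : Tor 𝒜 D α β) (hX : IsTorusManifold 𝒜) {z : FP 𝒜}
    (h0 : ∀ h, z.q (D h) = 0) : α + β z.ν = 0 := by
  obtain ⟨f, hf, hqf⟩ := exists_deg_one_ne hX.gen z.nv z.fix
  obtain ⟨n, hn⟩ := T.nil 1 z.ν f hf
  have h1 := eig_of_iter (D := D) (t := z.q.toLinearMap) (μ := 0) (fun x => by
    rw [zero_mul]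
    exact h0 x) hn hqf
  rw [Nat.cast_one, one_mul] at h1
  exact h1.symm

/-- The eigenvalue on a tangent vector. -/
theorem Tor.eig_tan [GradedAlgebra 𝒜] (T : Tor 𝒜 D α β) (hX : IsTorusManifold 𝒜) {z : FP 𝒜}
    (h0 : ∀ h, z.q (D h) = 0) {ω : Fin r → ℤ} {t : R →ₗ[ℂ] ℂ} (htw : HasWeight 𝒜 z.ν ω t)
    (hne : t ≠ 0) {μ : ℂ} (hμ : ∀ h, t (D h) = μ * t h) : μ = β ω := by
  obtain ⟨d, m, h, hh, hth⟩ : ∃ d m, ∃ h ∈ 𝒜 (d, m), t h ≠ 0 := by
    by_contra hcon
    push Not at hcon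
    apply hne
    apply linearMap_ext_graded 𝒜
    rintro ⟨d, m⟩ h hh
    exact hcon d m h hh
  obtain ⟨n, hn⟩ := T.nil d m h hh
  have h3 := eig_of_iter (D := D) (t := t) hμ hn hth
  have h4 := T.nu hX h0
  rw [htw d m h hh hth, map_add, map_nsmul, nsmul_eq_mul] at h3
  linear_combination h3 + (d : ℂ) * h4

/-- Two generalised eigenvalues. -/
theorem two_eig (D : R →ₗ[ℂ] R) {c c' : ℂ} (hc : c ≠ c') {y : R} {n n' : ℕ}
    (h : (fun x : R => D x - c • x)^[n] y = 0) (h' : (fun x : R => D x - c' • x)^[n'] y = 0) :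
    y = 0 := by
  have key : ∀ (c : ℂ) (n : ℕ), (fun x : R => D x - c • x)^[n] y =
      ((D - c • (1 : Module.End ℂ R)) ^ n) y := by
    intro c n
    rw [Module.End.pow_apply]
    rfl
  have h1 : y ∈ Module.End.maxGenEigenspace D c :=
    (Module.End.mem_maxGenEigenspace D c y).2 ⟨n, by rw [← key]; exact h⟩
  have h2 : y ∈ Module.End.maxGenEigenspace D c' :=
    (Module.End.mem_maxGenEigenspace D c' y).2 ⟨n', by rw [← key]; exact h'⟩
  have h3 := Module.End.disjoint_genEigenspace D hc ⊤ ⊤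
  exact (Submodule.disjoint_def.1 h3) y h1 h2

/-- The eigenvalue on a field. -/
theorem Tor.eig_fld [GradedAlgebra 𝒜] (T : Tor 𝒜 D α β) {ω : Fin r → ℤ} {G : Derivation ℂ R R}
    (hG : H93.IsHField 𝒜 ω G) (hne : G ≠ 0) {μ : ℂ} (hμ : ∀ h, ⁅D, G⁆ h = μ • G h) :
    μ = -β ω := by
  obtain ⟨d, m, h, hh, hth⟩ : ∃ d m, ∃ h ∈ 𝒜 (d, m), G h ≠ 0 := by
    by_contra hcon
    push Not at hcon
    apply hne
    have h1 : (G : R →ₗ[ℂ] R) = 0 := by
      apply linearMap_ext_graded 𝒜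
      rintro ⟨d, m⟩ h hh
      exact hcon d m h hh
    ext x
    exact LinearMap.congr_fun h1 x
  obtain ⟨n, hn⟩ := T.nil d m h hh
  obtain ⟨n', hn'⟩ := T.nil d _ _ (hG d m h hh)
  by_contra hcon
  apply hth
  refine two_eig (D : R →ₗ[ℂ] R) (c := (d : ℂ) * α + β m + μ) (c' := (d : ℂ) * α + β (m - ω)) ?_
    (n := n) (n' := n') ?_ hn'
  · intro h1
    apply hcon
    rw [map_sub] at h1
    linear_combination h1
  · have key : ∀ (k : ℕ) (x : R), (fun x : R => (D : R →ₗ[ℂ] R) x -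
        ((d : ℂ) * α + β m + μ) • x)^[k] (G x) =
        G ((fun x : R => D x - ((d : ℂ) * α + β m) • x)^[k] x) := by
      intro k
      induction k with
      | zero => intro x; rfl
      | succ k ih =>
        intro x
        rw [Function.iterate_succ_apply, Function.iterate_succ_apply, ← ih]
        congr 1
        have h2 := hμ x
        rw [Derivation.commutator_apply, sub_eq_iff_eq_add] at h2
        change D (G x) - _ = _
        rw [h2, map_sub, Derivation.map_smul, add_smul]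
        abel
    rw [key, hn, map_zero]

end

end Vale.Agent.P280.H690
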