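import Vale.Agent.P280.H690.Mix1

/-! P280, T7, helper690: mixing, part 2: the pair of fields along a `T`-curve. -/

open DirectSum Vale.Agent.P280.T Vale.Agent.P280.H127

namespace Vale.Agent.P280.H690

open Vale.Agent.P280.N Vale.Agent.P280.H490 Vale.Agent.P280.H143 Vale.Agent.P280.H60

variable {r : ℕ} {R : Type} [CommRing R] [IsDomain R] [Algebra ℂ R]
  {𝒜 : ℕ × (Fin r → ℤ) → Submodule ℂ R} [GradedAlgebra 𝒜]

omit [IsDomain R] in
theorem zero_of_not_pi {y : FP 𝒜} {ω : Fin r → ℤ} (h0 : ω ≠ 0) (h : ¬ y.Pi ω) {t : R →ₗ[ℂ] ℂ}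
    (ht : IsTangent y.q t) (htw : HasWeight 𝒜 y.ν ω t) : t = 0 := by
  by_contra hne
  exact h (tangentWeight_of_ne y.fix h0 ht htw hne)

omit [IsDomain R] [GradedAlgebra 𝒜] in
theorem pi_ne {y : FP 𝒜} {ω : Fin r → ℤ} (h : y.Pi ω) :
    ∃ t : R →ₗ[ℂ] ℂ, IsTangent y.q t ∧ HasWeight 𝒜 y.ν ω t ∧ t ≠ 0 := by
  obtain ⟨t, ht, htw, hc⟩ := h
  refine ⟨t, ht, htw, ?_⟩
  rintro rfl
  obtain ⟨d, m, h, hh, hne⟩ := hc 0
  apply hne
  rw [LinearMap.zero_apply, zero_mul, zero_mul]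

omit [IsDomain R] [GradedAlgebra 𝒜] in
theorem one_smul_of {y : FP 𝒜} {ω : Fin r → ℤ} (h : One 𝒜 y ω) {t0 t : R →ₗ[ℂ] ℂ}
    (h0 : IsTangent y.q t0) (h0w : HasWeight 𝒜 y.ν ω t0) (hne : t0 ≠ 0)
    (ht : IsTangent y.q t) (htw : HasWeight 𝒜 y.ν ω t) : ∃ b : ℂ, ∀ x, t x = b * t0 x := by
  obtain ⟨c, c', hcc, hlin⟩ := h t t0 ht htw h0 h0w
  have hc : c ≠ 0 := by
    rintro rfl
    rcases hcc with h1 | h1
    · exact h1 rfl
    · apply hne
      refine LinearMap.ext fun x => ?_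
      have h3 := hlin x
      rw [zero_mul, zero_add] at h3
      exact (mul_eq_zero.1 h3).resolve_left h1
  refine ⟨-(c' / c), fun x => ?_⟩
  have h3 := hlin x
  field_simp
  linear_combination h3

omit [IsDomain R] [GradedAlgebra 𝒜] in
/-- A tangent vector of weight zero at an isolated fixed point. -/
theorem weight_zero {y : FP 𝒜} (h : ¬ y.Pi 0) {t : R →ₗ[ℂ] ℂ} (ht : IsTangent y.q t)
    (htw : HasWeight 𝒜 y.ν 0 t) : ∃ c : ℂ, ∀ d m, ∀ x ∈ 𝒜 (d, m), t x = c * d * y.q x := by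
  by_contra hcon
  push Not at hcon
  exact h ⟨t, ht, htw, hcon⟩

/-- **The pair of fields along a `T`-curve.** -/
theorem curve_pair (H : H63X.Hyp 𝒜) {z : FP 𝒜} {x : Fin r → ℤ} (hx : z.Pi x)
    (hBd : ∀ (y : FP 𝒜) (w : Fin r → ℤ), y.Pi w → (w = x ∨ w = -x) → Lf 𝒜 y w ∧ One 𝒜 y w)
    (hmul : ∀ (y : FP 𝒜) (k : ℕ), 2 ≤ k → ¬ y.Pi (k • x) ∧ ¬ y.Pi (-(k • x))) :
    ∃ (y : FP 𝒜) (n : ℕ) (φ : R →ₐ[ℂ] Polynomial ℂ) (D G : Derivation ℂ R R),
      Curve y z (-x) n φ ∧ H93.IsHField 𝒜 x D ∧ H93.IsHField 𝒜 (-x) G ∧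
      (∀ h, φ (G h) = Polynomial.derivative (φ h)) ∧
      (∀ d m, ∀ h ∈ 𝒜 (d, m), φ (D h) = Polynomial.C ((n : ℂ) * d) * (Polynomial.X * φ h) -
        Polynomial.X ^ 2 * Polynomial.derivative (φ h)) ∧ ∃ h, z.q (D h) ≠ 0 := by
  classical
  have hx0 : x ≠ 0 := H63X.ne_zero_of_pi H hx
  have hsep : H63X.Sep 𝒜 x := by
    have key : ∀ (y : FP 𝒜) (j : ℕ), 1 ≤ j → y.Pi (j • x) → j = 1 := by
      intro y j hj hy
      by_contra hne
      exact (hmul y j (by omega)).1 hy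
    intro y j j' hj hj' h1 h2
    rw [key y j hj h1, key y j' hj' h2]
  have hopp : ∀ q : FP 𝒜, q.Pi x → ¬ q.Pi (-x) := fun q h1 h2 =>
    H63X.no_opp H hsep (fun y hy => (hBd y x hy (Or.inl rfl)).2) h1 h2
  obtain ⟨t, ht, htw, ht0⟩ := pi_ne hx
  obtain ⟨D0, hD0, hD0v⟩ := (hBd z x hx (Or.inl rfl)).1 t ht htw
  obtain ⟨y, n, φ, hφ, κ, hκ, hcoef⟩ := exists_curve_dir' H z hx0 ht htw ht0
  have ha : -x ≠ 0 := neg_ne_zero.2 hx0
  obtain ⟨s, hs, hsw, hs0⟩ := pi_ne hφ.ya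
  obtain ⟨hLy, hOy⟩ := hBd y (-x) hφ.ya (Or.inr rfl)
  obtain ⟨G0, hG0, hG0v⟩ := hLy s hs hsw
  have hneg : ∀ k : ℕ, (k + 1) • x = -(-x + k • -x) := by
    intro k
    rw [smul_neg, add_smul, one_smul]
    abel
  -- the field `G`
  obtain ⟨κ1, hκ1⟩ := H63X.der_dir H hφ (δ := φ.toLinearMap.comp (G0 : R →ₗ[ℂ] R))
    (dr_of_field hφ hG0).1 (dr_of_field hφ hG0).2 (fun k hk hpi => by
      have h1 := (hmul y (k + 1) (by omega)).2
      rw [hneg k, neg_neg] at h1
      rw [natCast_zsmul] at hpi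
      exact h1 hpi) (fun v v' => hOy v v')
  have hκ1' : ∀ h, φ (G0 h) = Polynomial.C κ1 * Polynomial.derivative (φ h) := fun h => hκ1 h
  have hκ10 : κ1 ≠ 0 := by
    rintro rfl
    apply hs0
    refine LinearMap.ext fun h => ?_
    rw [← hG0v, ← hφ.ev, hκ1', Polynomial.C_0, zero_mul, Polynomial.eval_zero,
      LinearMap.zero_apply]
  set G : Derivation ℂ R R := κ1⁻¹ • G0 with hG
  have hGa : ∀ h, G h = κ1⁻¹ • G0 h := fun h => rfl
  have hGf : H93.IsHField 𝒜 (-x) G := by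
    intro d m h hh
    rw [hGa]
    exact Submodule.smul_mem _ _ (hG0 d m h hh)
  have hGφ : ∀ h, φ (G h) = Polynomial.derivative (φ h) := by
    intro h
    rw [hGa, map_smul, hκ1', Polynomial.smul_eq_C_mul, ← mul_assoc, ← Polynomial.C_mul,
      inv_mul_cancel₀ hκ10, Polynomial.C_1, one_mul]
  have hGv : y.q.toLinearMap.comp (G : R →ₗ[ℂ] R) ≠ 0 := by
    intro h0
    apply hs0
    refine LinearMap.ext fun h => ?_
    have h1 := LinearMap.congr_fun h0 h
    change y.q (κ1⁻¹ • G0 h) = 0 at h1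
    rw [map_smul, smul_eq_mul, hG0v] at h1
    exact (mul_eq_zero.1 h1).resolve_left (inv_ne_zero hκ10)
  -- the field `D`
  obtain ⟨Eu, hEu⟩ := H587.exists_euler 𝒜
  set E : ℕ → Derivation ℂ R R := fun k => if k = 1 then Eu else if k = 2 then G else 0 with hE
  have hE1 : E 1 = Eu := rfl
  have hE2 : E 2 = G := rfl
  have hEk : ∀ k, k ≠ 1 → k ≠ 2 → E k = 0 := fun k h1 h2 => by
    simp only [hE, if_neg h1, if_neg h2]
  have e1 : x + 1 • -x = 0 := by rw [one_smul]; abel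
  have e2 : x + 2 • -x = -x := by rw [two_smul]; abel
  have hEf : ∀ k, H93.IsHField 𝒜 (x + k • -x) (E k) := by
    intro k
    by_cases h1 : k = 1
    · subst h1
      rw [hE1, e1]
      intro d m h hh
      rw [hEu d m h hh, sub_zero]
      exact Submodule.smul_mem _ _ hh
    · by_cases h2 : k = 2
      · subst h2
        rw [hE2, e2]
        exact hGf
      · rw [hEk k h1 h2]
        intro d m h _
        exact Submodule.zero_mem _
  have hk3 : ∀ k : ℕ, 3 ≤ k → x + k • -x ≠ 0 ∧ ¬ y.Pi (x + k • -x) := by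
    intro k hk
    obtain ⟨j, rfl⟩ : ∃ j, k = j + 1 := ⟨k - 1, by omega⟩
    have h1 : x + (j + 1) • -x = -(j • x) := by
      rw [smul_neg, add_smul, one_smul]
      abel
    rw [h1]
    refine ⟨?_, (hmul y j (by omega)).2⟩
    intro h2
    have h3 := neg_eq_zero.1 h2
    have h4 := nsmul_inj hx0 (k := j) (l := 0) (by rw [h3, zero_smul])
    omega
  have hyx : ¬ y.Pi x := fun h => hopp y h hφ.ya
  have hc : ∀ k : ℕ, 1 ≤ k → ∀ t : R →ₗ[ℂ] ℂ, IsTangent y.q t →
      HasWeight 𝒜 y.ν (x + k • -x) t → ∃ b : ℂ, ∀ h, t h = b * y.q (E k h) := by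
    intro k hk t ht htw
    by_cases h1 : k = 1
    · subst h1
      rw [e1] at htw
      obtain ⟨c, hc⟩ := weight_zero (H.iso y.q y.ν y.nv y.fix) ht htw
      refine ⟨c, fun h => ?_⟩
      have h2 : t = c • y.q.toLinearMap.comp (Eu : R →ₗ[ℂ] R) := by
        apply linearMap_ext_graded 𝒜
        rintro ⟨d, m⟩ h hh
        change t h = c • y.q (Eu h)
        rw [hc d m h hh, hEu d m h hh, map_smul, smul_eq_mul, smul_eq_mul, mul_assoc]
      exact LinearMap.congr_fun h2 h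
    · by_cases h2 : k = 2
      · subst h2
        rw [e2] at htw
        exact one_smul_of hOy (H224.isTangent_value y.q G) (H224.hasWeight_value y.fix hGf) hGv
          ht htw
      · have h3 := hk3 k (by omega)
        refine ⟨0, fun h => ?_⟩
        rw [zero_of_not_pi h3.1 h3.2 ht htw, LinearMap.zero_apply, zero_mul]
  obtain ⟨c, hc0, hDr, hz⟩ := exists_coeffs hφ ha hEf hc (dr_of_field hφ hD0) (fun h => by
    change (φ (D0 h)).coeff 0 = 0
    rw [Polynomial.coeff_zero_eq_eval_zero, hφ.ev]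
    exact val_zero y hx0 hD0 hyx h) 2
  have hzero := dr_zero (K := 2) hφ (fun k hk => (hk3 k (by omega)).1)
    (fun k hk => (hk3 k (by omega)).2) hDr hz
  have hsum : ∀ h, φ (D0 h) = Polynomial.C (c 1) * (Polynomial.X * φ (Eu h)) +
      Polynomial.C (c 2) * (Polynomial.X ^ 2 * Polynomial.derivative (φ h)) := by
    intro h
    have h1 := hzero h
    rw [LinearMap.sub_apply, LinearMap.sum_apply, Finset.sum_range_succ, Finset.sum_range_succ,
      Finset.sum_range_one] at h1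
    simp only [LinearMap.smul_apply, mX_apply, hc0, zero_smul, pow_one, hE1, hE2, hGφ,
      Polynomial.smul_eq_C_mul, LinearMap.zero_apply, zero_add] at h1
    exact sub_eq_zero.1 h1
  have hsum' : ∀ d m, ∀ h ∈ 𝒜 (d, m), φ (D0 h) =
      Polynomial.C (c 1 * d) * (Polynomial.X * φ h) +
      Polynomial.C (c 2) * (Polynomial.X ^ 2 * Polynomial.derivative (φ h)) := by
    intro d m h hh
    rw [hsum, hEu d m h hh, map_smul, Polynomial.smul_eq_C_mul, Polynomial.C_mul]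
    ring
  -- the relation between the coefficients
  have hrel : c 1 = -(c 2 * n) := by
    obtain ⟨f, hf, hqf⟩ := exists_deg_one_ne H.hX.gen z.nv z.fix
    obtain ⟨i, hi, -, e, he⟩ := form hφ hf
    have h1 := hφ.ev' 1 _ f hf
    rw [he, Polynomial.coeff_C_mul_X_pow] at h1
    have hin : 1 * n = i := by
      by_contra hne
      rw [if_neg hne] at h1
      exact hqf h1.symm
    rw [if_pos hin] at h1
    have he0 : e ≠ 0 := by rw [h1]; exact hqf
    obtain ⟨j, hj, -, e', he'⟩ := form hφ (hD0 1 _ f hf)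
    have h2 : (φ (D0 f)).coeff (n + 1) = _ :=
      congrArg (fun p => Polynomial.coeff p (n + 1)) (hsum' 1 _ f hf)
    have hn1 := hφ.n1
    obtain ⟨n', hn'⟩ : ∃ n', n = n' + 1 := ⟨n - 1, by omega⟩
    have hi' : i = n' + 1 := by omega
    rw [he', he, Polynomial.coeff_C_mul_X_pow, if_neg (by omega), Polynomial.coeff_add,
      Polynomial.coeff_C_mul, Polynomial.coeff_C_mul, Polynomial.coeff_X_mul,
      Polynomial.coeff_C_mul_X_pow, if_pos (by omega), hi', hn', Polynomial.derivative_C_mul_X_pow,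
      show n' + 1 + 1 = n' + 2 by ring, Polynomial.coeff_X_pow_mul, Nat.add_sub_cancel,
      Polynomial.coeff_C_mul_X_pow, if_pos rfl] at h2
    have h3 : e * (c 1 + c 2 * n) = 0 := by
      rw [hn']
      push_cast at h2 ⊢
      linear_combination -h2
    have h4 := (mul_eq_zero.1 h3).resolve_left he0
    linear_combination h4
  have hc2 : c 2 ≠ 0 := by
    intro h2
    apply ht0
    apply linearMap_ext_graded 𝒜
    rintro ⟨d, m⟩ h hh
    rw [LinearMap.zero_apply, ← hD0v, ← hφ.ev' d _ _ (hD0 d m h hh), hsum' d m h hh, hrel, h2]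
    simp
  refine ⟨y, n, φ, (-(c 2)⁻¹) • D0, G, hφ, ?_, hGf, hGφ, ?_, ?_⟩
  · intro d m h hh
    rw [Derivation.smul_apply]
    exact Submodule.smul_mem _ _ (hD0 d m h hh)
  · intro d m h hh
    rw [Derivation.smul_apply, map_smul, hsum' d m h hh, hrel, Polynomial.smul_eq_C_mul]
    have h1 : Polynomial.C (-(c 2)⁻¹) * Polynomial.C (-(c 2 * n) * (d : ℂ)) =
        Polynomial.C ((n : ℂ) * d) := by
      rw [← Polynomial.C_mul]
      congr 1
      field_simp
    have h2 : Polynomial.C (-(c 2)⁻¹) * Polynomial.C (c 2) = -1 := by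
      rw [← Polynomial.C_mul, neg_mul, inv_mul_cancel₀ hc2, Polynomial.C_neg, Polynomial.C_1]
    linear_combination (Polynomial.X * φ h) * h1 +
      (Polynomial.X ^ 2 * Polynomial.derivative (φ h)) * h2
  · by_contra hcon
    push Not at hcon
    apply ht0
    refine LinearMap.ext fun h => ?_
    have h1 := hcon h
    rw [Derivation.smul_apply, map_smul, smul_eq_mul, hD0v] at h1
    exact (mul_eq_zero.1 h1).resolve_left (neg_ne_zero.2 (inv_ne_zero hc2))

/-- The values of the fields of the pair at the upper end. -/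
theorem pair_vals {y z : FP 𝒜} {a x : Fin r → ℤ} {n : ℕ} {φ : R →ₐ[ℂ] Polynomial ℂ}
    (hφ : Curve y z a n φ) {D G Eu : Derivation ℂ R R} (hDf : H93.IsHField 𝒜 x D)
    (hGf : H93.IsHField 𝒜 (-x) G) (hEu : ∀ d m, ∀ h ∈ 𝒜 (d, m), Eu h = (d : ℂ) • h)
    (hG : ∀ h, φ (G h) = Polynomial.derivative (φ h))
    (hD : ∀ d m, ∀ h ∈ 𝒜 (d, m), φ (D h) = Polynomial.C ((n : ℂ) * d) * (Polynomial.X * φ h) -
        Polynomial.X ^ 2 * Polynomial.derivative (φ h)) :
    (∀ h, z.q (G h) = 0) ∧ (∀ h, z.q ((⁅D, G⁆ - (n : ℂ) • Eu) h) = 0) ∧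
      (∀ h, z.q (D ((⁅D, G⁆ - (n : ℂ) • Eu) h)) = -2 * z.q (D h)) ∧
      ∀ d m, ∀ h ∈ 𝒜 (d, m), (⁅D, G⁆ - (n : ℂ) • Eu) h ∈ 𝒜 (d, m) := by
  have hDm : ∀ d m, ∀ h ∈ 𝒜 (d, m), D (G h) ∈ 𝒜 (d, m) := by
    intro d m h hh
    have h1 := hDf d _ _ (hGf d m h hh)
    rwa [sub_neg_eq_add, add_sub_cancel_right] at h1
  have hGm : ∀ d m, ∀ h ∈ 𝒜 (d, m), G (D h) ∈ 𝒜 (d, m) := by
    intro d m h hh
    have h1 := hGf d _ _ (hDf d m h hh)
    rwa [sub_neg_eq_add, sub_add_cancel] at h1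
  have hHm : ∀ d m, ∀ h ∈ 𝒜 (d, m), (⁅D, G⁆ - (n : ℂ) • Eu) h ∈ 𝒜 (d, m) := by
    intro d m h hh
    rw [Derivation.sub_apply, Derivation.commutator_apply, Derivation.smul_apply, hEu d m h hh]
    exact Submodule.sub_mem _ (Submodule.sub_mem _ (hDm d m h hh) (hGm d m h hh))
      (Submodule.smul_mem _ _ (Submodule.smul_mem _ _ hh))
  -- the values on homogeneous elements
  have hv : ∀ d m, ∀ h ∈ 𝒜 (d, m), ∃ (i : ℕ) (c : ℂ), i ≤ d * n ∧
      φ h = Polynomial.C c * Polynomial.X ^ i ∧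
      φ (G h) = Polynomial.C (c * i) * Polynomial.X ^ (i - 1) ∧
      φ (D h) = Polynomial.C (c * (n * d - i)) * Polynomial.X ^ (i + 1) ∧
      φ ((⁅D, G⁆ - (n : ℂ) • Eu) h) = Polynomial.C (2 * (i : ℂ) - 2 * (n * d)) * φ h := by
    intro d m h hh
    obtain ⟨i, hi, -, c, hc⟩ := form hφ hh
    have hX : Polynomial.X * Polynomial.derivative (φ h) = Polynomial.C (i : ℂ) * φ h := by
      rw [hc, Polynomial.derivative_C_mul_X_pow]
      rcases i with _ | i
      · simp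
      · rw [Nat.add_sub_cancel, Polynomial.C_mul]
        ring
    have hX2 : Polynomial.X ^ 2 * Polynomial.derivative (φ h) =
        Polynomial.C (i : ℂ) * (Polynomial.X * φ h) := by
      linear_combination Polynomial.X * hX
    have e2 : φ (D h) = Polynomial.C (c * (n * d - i)) * Polynomial.X ^ (i + 1) := by
      rw [hD d m h hh, hX2, hc]
      simp only [Polynomial.C_mul, Polynomial.C_sub]
      ring
    refine ⟨i, c, hi, hc, ?_, e2, ?_⟩
    · rw [hG, hc, Polynomial.derivative_C_mul_X_pow]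
    · have e3 : φ (G (D h)) = _ := hG (D h)
      rw [hD d m h hh] at e3
      have e4 : φ (D (G h)) = _ := hD d _ _ (hGf d m h hh)
      rw [hG] at e4
      simp only [Polynomial.derivative_sub, Polynomial.derivative_mul, Polynomial.derivative_C,
        Polynomial.derivative_X, Polynomial.derivative_X_pow] at e3
      rw [Derivation.sub_apply, Derivation.commutator_apply, Derivation.smul_apply, hEu d m h hh,
        map_sub, map_sub, e3, e4, map_smul, map_smul, Polynomial.smul_eq_C_mul,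
        Polynomial.smul_eq_C_mul]
      have h2 : Polynomial.C (2 * (i : ℂ) - 2 * (n * d)) = 2 * Polynomial.C (i : ℂ) -
          2 * (Polynomial.C (n : ℂ) * Polynomial.C (d : ℂ)) := by
        rw [Polynomial.C_sub, Polynomial.C_mul, Polynomial.C_mul, Polynomial.C_mul]
        rfl
      rw [h2, Polynomial.C_mul]
      simp only [Nat.cast_ofNat, Nat.add_one_sub_one, pow_one, zero_mul, one_mul, zero_add]
      have h3 : (Polynomial.C 2 : Polynomial ℂ) = 2 := rfl
      rw [h3]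
      linear_combination 2 * hX
  have hG0 : ∀ h, z.q (G h) = 0 := by
    have h1 : z.q.toLinearMap.comp (G : R →ₗ[ℂ] R) = 0 := by
      apply linearMap_ext_graded 𝒜
      rintro ⟨d, m⟩ h hh
      obtain ⟨i, c, hi, -, h1, -, -⟩ := hv d m h hh
      change z.q (G h) = 0
      rw [← hφ.ev' d _ _ (hGf d m h hh), h1, Polynomial.coeff_C_mul_X_pow]
      rcases i with _ | i
      · simp
      · rw [if_neg (by omega)]
    exact fun h => LinearMap.congr_fun h1 h
  refine ⟨hG0, ?_, ?_, hHm⟩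
  · have h1 : z.q.toLinearMap.comp ((⁅D, G⁆ - (n : ℂ) • Eu : Derivation ℂ R R) : R →ₗ[ℂ] R) =
        0 := by
      apply linearMap_ext_graded 𝒜
      rintro ⟨d, m⟩ h hh
      obtain ⟨i, c, hi, h1, -, -, h4⟩ := hv d m h hh
      change z.q ((⁅D, G⁆ - (n : ℂ) • Eu) h) = 0
      rw [← hφ.ev' d _ _ (hHm d m h hh), h4, Polynomial.coeff_C_mul, h1,
        Polynomial.coeff_C_mul_X_pow]
      by_cases h5 : d * n = i
      · rw [← h5]
        push_cast
        ring
      · rw [if_neg h5, mul_zero]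
    exact fun h => LinearMap.congr_fun h1 h
  · have h1 : (z.q.toLinearMap.comp (D : R →ₗ[ℂ] R)).comp
        ((⁅D, G⁆ - (n : ℂ) • Eu : Derivation ℂ R R) : R →ₗ[ℂ] R) =
        (-2 : ℂ) • z.q.toLinearMap.comp (D : R →ₗ[ℂ] R) := by
      apply linearMap_ext_graded 𝒜
      rintro ⟨d, m⟩ h hh
      obtain ⟨i, c, hi, h1, -, h3, h4⟩ := hv d m h hh
      have hHh := hHm d m h hh
      change z.q (D ((⁅D, G⁆ - (n : ℂ) • Eu) h)) = (-2 : ℂ) • z.q (D h)
      have h5 : φ (D ((⁅D, G⁆ - (n : ℂ) • Eu) h)) =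
          Polynomial.C (2 * (i : ℂ) - 2 * (n * d)) * φ (D h) := by
        rw [hD d _ _ hHh, h4, hD d m h hh, Polynomial.derivative_C_mul]
        ring
      rw [← hφ.ev' d _ _ (hDf d _ _ hHh), h5, Polynomial.coeff_C_mul, smul_eq_mul,
        ← hφ.ev' d _ _ (hDf d m h hh), h3, Polynomial.coeff_C_mul_X_pow]
      by_cases h6 : d * n = i + 1
      · rw [if_pos h6]
        have h7 : (d : ℂ) * n = i + 1 := by exact_mod_cast h6
        linear_combination (-2 * c * (n * d - i)) * h7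
      · rw [if_neg h6, mul_zero, mul_zero]
    intro h
    have h2 := LinearMap.congr_fun h1 h
    rw [LinearMap.smul_apply, smul_eq_mul] at h2
    exact h2

end Vale.Agent.P280.H690
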