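import Vale.Agent.P280.H690.Mix2

/-! P280, T7, helper690: mixing, part 3: the eigenvalue on the root. -/

open DirectSum Vale.Agent.P280.T Vale.Agent.P280.H127

namespace Vale.Agent.P280.H690

open Vale.Agent.P280.N Vale.Agent.P280.H490 Vale.Agent.P280.H143 Vale.Agent.P280.H60

variable {r : ℕ} {R : Type} [CommRing R] [IsDomain R] [Algebra ℂ R]
  {𝒜 : ℕ × (Fin r → ℤ) → Submodule ℂ R} [GradedAlgebra 𝒜]

/-- The lower bound of the coroot on the weights. -/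
theorem rt_low (H : H63X.Hyp 𝒜) {N : ℤ} (hN : 0 < N) {χ : Fin r → ℤ} (hχ : Vx 𝒜 χ)
    {β : (Fin r → ℤ) →+ ℤ} {α : ℂ} {E F : Derivation ℂ R R} (hR : Rt 𝒜 N χ β α E F)
    {μ : Fin r → ℤ} (hμ : Wt 𝒜 μ) : -(2 * N) ≤ β μ := by
  by_cases h1 : μ = χ
  · rw [h1, hR.two]
    omega
  by_cases h2 : μ = -χ
  · rw [h2, map_neg, hR.two]
  have h3 := H63X.root_bd H hN hχ (root0 hR) hμ h1 h2
  have h4 := neg_abs_le (β μ)
  omega

/-- The coroot takes the value `2 N` only on the root. -/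
theorem rt_eq (H : H63X.Hyp 𝒜) {N : ℤ} (hN : 0 < N) {χ : Fin r → ℤ} (hχ : Vx 𝒜 χ)
    {β : (Fin r → ℤ) →+ ℤ} {α : ℂ} {E F : Derivation ℂ R R} (hR : Rt 𝒜 N χ β α E F)
    {μ : Fin r → ℤ} (hμ : Wt 𝒜 μ) : (N < β μ → μ = χ) ∧ (β μ < -N → μ = -χ) := by
  have hχ0 : β χ = 2 * N := hR.two
  constructor
  · intro h
    by_contra h1
    by_cases h2 : μ = -χ
    · rw [h2, map_neg, hχ0] at h
      omega
    have h3 := H63X.root_bd H hN hχ (root0 hR) hμ h1 h2
    have h4 := le_abs_self (β μ)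
    omega
  · intro h
    by_contra h2
    by_cases h1 : μ = χ
    · rw [h1, hχ0] at h
      omega
    have h3 := H63X.root_bd H hN hχ (root0 hR) hμ h1 h2
    have h4 := neg_abs_le (β μ)
    omega

/-- Fields outside of the hull are zero. -/
theorem field_out (H : H63X.Hyp 𝒜) (l : (Fin r → ℤ) →+ ℤ) {A : ℤ} (hA : 0 ≤ A)
    (hmax : ∀ ω, Wt 𝒜 ω → l ω ≤ A) {ω : Fin r → ℤ} {D : Derivation ℂ R R}
    (hD : H93.IsHField 𝒜 ω D) (hω : A < l ω) : D = 0 := by
  by_contra hne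
  have h1 := H63X.hull_field H l hA hmax (toVF_glob D) (hv_toVF hD) (fun h0 => hne (by
    apply toVF_inj
    rw [h0]
    refine vf_ext fun a => ?_
    rw [toVF_iK, Derivation.zero_apply, Derivation.zero_apply, iK_zero]))
  omega

theorem field_out_rt (H : H63X.Hyp 𝒜) {N : ℤ} (hN : 0 < N) {χ : Fin r → ℤ} (hχ : Vx 𝒜 χ)
    {β : (Fin r → ℤ) →+ ℤ} {α : ℂ} {E F : Derivation ℂ R R} (hR : Rt 𝒜 N χ β α E F)
    {ω : Fin r → ℤ} {D : Derivation ℂ R R} (hD : H93.IsHField 𝒜 ω D) (hω : 2 * N < β ω) :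
    D = 0 :=
  field_out H β (by omega) (fun _ hω => rt_bd H hN hχ hR hω) hD hω

theorem rt_ne (H : H63X.Hyp 𝒜) {N : ℤ} (hN : 0 < N) {χ : Fin r → ℤ} (hχ : Vx 𝒜 χ)
    {β : (Fin r → ℤ) →+ ℤ} {α : ℂ} {E F : Derivation ℂ R R} (hR : Rt 𝒜 N χ β α E F) :
    E ≠ 0 := by
  rintro rfl
  refine (H63X.C07.ne_zero H hN hχ.1 (root0 hR)).1 ?_
  refine vf_ext fun a => ?_
  rw [toVF_iK, Derivation.zero_apply, Derivation.zero_apply, iK_zero]

omit [IsDomain R] in
/-- The Euler field commutes with the fields. -/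
theorem eu_comm {Eu P : Derivation ℂ R R} {ω : Fin r → ℤ}
    (hEu : ∀ d m, ∀ h ∈ 𝒜 (d, m), Eu h = (d : ℂ) • h) (hP : H93.IsHField 𝒜 ω P) :
    ⁅Eu, P⁆ = 0 := by
  have h1 : ((⁅Eu, P⁆ : Derivation ℂ R R) : R →ₗ[ℂ] R) = 0 := by
    apply linearMap_ext_graded 𝒜
    rintro ⟨d, m⟩ h hh
    change ⁅Eu, P⁆ h = 0
    rw [Derivation.commutator_apply, hEu d m h hh, hEu d _ _ (hP d m h hh), Derivation.map_smul,
      sub_self]
  ext x
  exact LinearMap.congr_fun h1 x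

omit [IsDomain R] in
theorem ad_eq {Eu D G P : Derivation ℂ R R} {ω : Fin r → ℤ} (n : ℂ)
    (hEu : ∀ d m, ∀ h ∈ 𝒜 (d, m), Eu h = (d : ℂ) • h) (hP : H93.IsHField 𝒜 ω P) :
    ⁅⁅D, G⁆ - n • Eu, P⁆ = ⁅D, ⁅G, P⁆⁆ - ⁅G, ⁅D, P⁆⁆ := by
  rw [sub_lie, smul_lie, eu_comm hEu hP, smul_zero, sub_zero, lie_lie]

omit [IsDomain R] in
/-- The scalar of the root at a point where its fields vanish. -/
theorem rt_nu (H : H63X.Hyp 𝒜) {N : ℤ} {χ : Fin r → ℤ} {β : (Fin r → ℤ) →+ ℤ} {α : ℂ}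
    {E F : Derivation ℂ R R} (hR : Rt 𝒜 N χ β α E F) (z : FP 𝒜) (hE0 : ∀ h, z.q (E h) = 0)
    (hF0 : ∀ h, z.q (F h) = 0) : α + (β z.ν : ℂ) = 0 := by
  obtain ⟨f, hf, hqf⟩ := exists_deg_one_ne H.hX.gen z.nv z.fix
  have h1 := congrArg z.q (hR.br 1 z.ν f hf)
  rw [map_sub, hE0, hF0, sub_zero, map_neg, map_smul, smul_eq_mul, Nat.cast_one, one_mul] at h1
  exact (mul_eq_zero.1 (neg_eq_zero.1 h1.symm)).resolve_right hqf

omit [IsDomain R] [GradedAlgebra 𝒜] in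
theorem isHField_of_eq {D : Derivation ℂ R R} {ω ω' : Fin r → ℤ} (h : H93.IsHField 𝒜 ω D)
    (he : ω = ω') : H93.IsHField 𝒜 ω' D := he ▸ h

/-- **The eigenvalue on the root is not zero.** -/
theorem ba_ne (H : H63X.Hyp 𝒜) {N : ℤ} (hN : 0 < N) {a : Fin r → ℤ} (ha : Vx 𝒜 a)
    {β : (Fin r → ℤ) →+ ℤ} {α : ℂ} {E F : Derivation ℂ R R} (hR : Rt 𝒜 N a β α E F)
    (z : FP 𝒜) (hE0 : ∀ h, z.q (E h) = 0) (hF0 : ∀ h, z.q (F h) = 0) {x : Fin r → ℤ}
    (hβx : β x = -N) (hc : Vx 𝒜 (2 • x + a)) (hone : z.Pi (x + a) → One 𝒜 z (x + a))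
    {D G Eu : Derivation ℂ R R} (hD : H93.IsHField 𝒜 x D) (hG : H93.IsHField 𝒜 (-x) G)
    (hEu : ∀ d m, ∀ h ∈ 𝒜 (d, m), Eu h = (d : ℂ) • h) {n : ℂ} (hDz : ∃ h, z.q (D h) ≠ 0)
    (hH0 : ∀ h, z.q ((⁅D, G⁆ - n • Eu) h) = 0) {α' : ℂ} {b' : (Fin r → ℤ) →+ ℂ}
    (T : Tor 𝒜 (⁅D, G⁆ - n • Eu) α' b') (hs : b' x = -2) : b' a ≠ 0 := by
  intro hba
  have hX := H.hX
  have hν := rt_nu H hR z hE0 hF0
  have hNC : (N : ℂ) ≠ 0 := by exact_mod_cast hN.ne'
  have hx0 : x ≠ 0 := by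
    rintro rfl
    rw [map_zero] at hβx
    omega
  have hβxa : β (x + a) = N := by
    rw [map_add, hβx, hR.two]
    ring
  have hxa0 : x + a ≠ 0 := by
    intro h
    rw [h, map_zero] at hβxa
    omega
  have hbxa : b' (x + a) = -2 := by rw [map_add, hs, hba, add_zero]
  have hEne := rt_ne H hN ha hR
  set Hd : Derivation ℂ R R := ⁅D, G⁆ - n • Eu with hHd
  have hHf : H93.IsHField 𝒜 0 Hd := by
    intro d m h hh
    rw [sub_zero]
    exact T.hom d m h hh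
  have had : ∀ {P : Derivation ℂ R R} {ω : Fin r → ℤ}, H93.IsHField 𝒜 ω P →
      ⁅Hd, P⁆ = ⁅D, ⁅G, P⁆⁆ - ⁅G, ⁅D, P⁆⁆ := fun hP => ad_eq n hEu hP
  -- the tangent vector `t`
  set t : R →ₗ[ℂ] ℂ := z.q.toLinearMap.comp (D : R →ₗ[ℂ] R) with ht
  have htt : IsTangent z.q t := H224.isTangent_value z.q D
  have htw : HasWeight 𝒜 z.ν x t := H224.hasWeight_value z.fix hD
  have hta : ∀ h, t h = z.q (D h) := fun h => rfl
  have htF : ∀ h, t (F h) = 0 := by
    have h1 := tan_comp htt hF0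
    have h2 := wt_comp htw hR.hF
    have h3 : β (x + -a) = -(3 * N) := by
      rw [map_add, map_neg, hβx, hR.two]
      ring
    have h4 : x + -a ≠ 0 := by
      intro h
      rw [h, map_zero] at h3
      omega
    have h5 := zero_of_not_pi h4 (fun h => by
      have := rt_low H hN ha hR ⟨z, h⟩
      omega) h1 h2
    exact fun h => LinearMap.congr_fun h5 h
  -- the field `w0`
  set w0 : Derivation ℂ R R := ⁅D, E⁆ with hw0
  have hw0f : H93.IsHField 𝒜 (x + a) w0 := hD.lie hR.hE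
  set t0 : R →ₗ[ℂ] ℂ := z.q.toLinearMap.comp (w0 : R →ₗ[ℂ] R) with ht0
  have ht0a : ∀ h, t0 h = t (E h) := by
    intro h
    change z.q (w0 h) = z.q (D (E h))
    rw [hw0, Derivation.commutator_apply, map_sub, hE0, sub_zero]
  have ht0t : IsTangent z.q t0 := H224.isTangent_value z.q w0
  have ht0w : HasWeight 𝒜 z.ν (x + a) t0 := H224.hasWeight_value z.fix hw0f
  have ht0ne : t0 ≠ 0 := by
    intro h0
    obtain ⟨h1, hh1⟩ := hDz
    have htne : t ≠ 0 := fun h => hh1 (LinearMap.congr_fun h h1)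
    apply htne
    apply linearMap_ext_graded 𝒜
    rintro ⟨d, m⟩ h hh
    rw [LinearMap.zero_apply]
    by_contra hne
    have h2 := congrArg t (hR.br d m h hh)
    rw [map_sub, htF, sub_zero, ← ht0a, h0, LinearMap.zero_apply, map_neg, map_smul,
      smul_eq_mul] at h2
    have h3 := (mul_eq_zero.1 (neg_eq_zero.1 h2.symm)).resolve_right hne
    rw [htw d m h hh hne, map_add, hβx, map_nsmul, nsmul_eq_mul] at h3
    apply hNC
    push_cast at h3
    linear_combination (d : ℂ) * hν - h3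
  have hpi' : z.Pi (x + a) := tangentWeight_of_ne z.fix hxa0 ht0t ht0w ht0ne
  have hO := hone hpi'
  -- `[G, E] = 0`
  have hGE : ⁅G, E⁆ = 0 := field_out_rt H hN ha hR (hG.lie hR.hE) (by
    rw [map_add, map_neg, hβx, hR.two]
    omega)
  have hHE : ⁅Hd, E⁆ = 0 := by
    obtain ⟨k, hk⟩ := rt_unique H hN ha hR (D := ⁅Hd, E⁆)
      (isHField_of_eq (hHf.lie hR.hE) (zero_add a))
    have h1 := T.eig_fld hR.hE hEne hk
    rw [hba, neg_zero] at h1
    ext h
    rw [hk h, h1, zero_smul]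
    rfl
  have hGw0 : ⁅G, w0⁆ = 0 := by
    have h1 := had hR.hE
    rw [hHE, hGE, lie_zero, zero_sub, eq_comm, neg_eq_zero] at h1
    exact h1
  -- the field `w1`
  set w1 : Derivation ℂ R R := ⁅D, w0⁆ with hw1
  have hw1f : H93.IsHField 𝒜 (2 • x + a) w1 := isHField_of_eq (hD.lie hw0f) (by
    rw [two_smul]
    abel)
  have hHw0 : ⁅Hd, w0⁆ = -⁅G, w1⁆ := by rw [had hw0f, hGw0, lie_zero, zero_sub]
  have hw0ne : w0 ≠ 0 := by
    intro h
    apply ht0ne
    refine LinearMap.ext fun h' => ?_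
    change z.q (w0 h') = 0
    rw [h, Derivation.zero_apply, map_zero]
  have hw1ne : w1 ≠ 0 := by
    intro h
    have h1 := T.eig_fld hw0f hw0ne (μ := 0) (fun h' => by
      rw [hHw0, h, lie_zero, neg_zero, Derivation.zero_apply, zero_smul])
    rw [hbxa] at h1
    norm_num at h1
  obtain ⟨κc, hκc⟩ := H63X.C04.bracket_zero H hc T.hom hw1f hw1ne
  have hκc4 : κc = 4 := by
    have h1 := T.eig_fld hw1f hw1ne hκc
    rw [h1, map_add, map_nsmul, hs, hba]
    norm_num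
  -- the field `w`
  set w : Derivation ℂ R R := ⁅G, w1⁆ with hw
  have hwf : H93.IsHField 𝒜 (x + a) w := isHField_of_eq (hG.lie hw1f) (by
    rw [two_smul]
    abel)
  have hDw1 : ⁅D, w1⁆ = 0 := by
    obtain ⟨hcw, l, hl, hex⟩ := hc
    have hmax : ∀ ω, Wt 𝒜 ω → l ω ≤ l (2 • x + a) := by
      intro ω hω
      by_cases h1 : ω = 2 • x + a
      · rw [h1]
      · exact (hex ω hω h1).le
    refine field_out H l hl.le hmax (hD.lie hw1f) ?_
    have h1 := hex (x + a) ⟨z, hpi'⟩ (by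
      intro h
      apply hx0
      rw [two_smul, add_assoc, eq_comm, add_eq_right] at h
      exact h)
    have h2 : l (2 • x + a) = l x + l (x + a) := by
      rw [← map_add]
      congr 1
      rw [two_smul]
      abel
    rw [map_add l x (2 • x + a)]
    omega
  have hDw : ∀ h, ⁅D, w⁆ h = (4 : ℂ) • w1 h := by
    intro h
    have h1 := had hw1f
    rw [hDw1, lie_zero, sub_zero] at h1
    rw [← hκc4, ← hκc h, h1]
  obtain ⟨κ, hκ⟩ := rt_unique H hN ha hR (D := ⁅G, w⁆)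
    (isHField_of_eq (hG.lie hwf) (by abel))
  have hGw : ⁅G, w⁆ = κ • E := by
    ext h
    exact hκ h
  have hDw' : ⁅D, w⁆ = (4 : ℂ) • w1 := by
    ext h
    exact hDw h
  have hHw : ⁅Hd, w⁆ = κ • w0 - (4 : ℂ) • w := by
    rw [had hwf, hGw, hDw', lie_smul, lie_smul]
  -- the values at `z`
  obtain ⟨μ, hμ⟩ := one_smul_of hO ht0t ht0w ht0ne (tan_comp ht0t hH0)
    (by
      have h1 := wt_comp ht0w hHf
      rwa [add_zero] at h1)
  have hμ2 : μ = -2 := by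
    rw [← hbxa]
    exact T.eig_tan hX hH0 ht0w ht0ne hμ
  have ht0H : ∀ h, z.q (w0 (Hd h)) = -2 * t0 h := by
    intro h
    rw [← hμ2]
    exact hμ h
  obtain ⟨ρ, hρ⟩ := one_smul_of hO ht0t ht0w ht0ne (H224.isTangent_value z.q w)
    (H224.hasWeight_value z.fix hwf)
  have hρ' : ∀ h, z.q (w h) = ρ * t0 h := hρ
  obtain ⟨h1, hh1⟩ : ∃ h, t0 h ≠ 0 := by
    by_contra hcon
    push Not at hcon
    exact ht0ne (LinearMap.ext hcon)
  have hρ2 : ρ = -2 := by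
    have h2 := congrArg (fun P : Derivation ℂ R R => z.q (P h1)) hHw0
    change z.q (⁅Hd, w0⁆ h1) = z.q (-(w h1)) at h2
    rw [Derivation.commutator_apply, map_sub, hH0, ht0H, map_neg, hρ'] at h2
    have h3 : (ρ + 2) * t0 h1 = 0 := by linear_combination h2
    have h4 := (mul_eq_zero.1 h3).resolve_right hh1
    linear_combination h4
  have hκ12 : κ = -12 := by
    have h2 := congrArg (fun P : Derivation ℂ R R => z.q (P h1)) hHw
    change z.q (⁅Hd, w⁆ h1) = z.q (κ • w0 h1 - (4 : ℂ) • w h1) at h2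
    rw [Derivation.commutator_apply, map_sub, hH0, hρ', map_sub, map_smul, map_smul, smul_eq_mul,
      smul_eq_mul, hρ', hρ2] at h2
    have h5 : t0 (Hd h1) = -2 * t0 h1 := ht0H h1
    have h6 : z.q (w0 h1) = t0 h1 := rfl
    rw [h5, h6] at h2
    have h3 : (κ + 12) * t0 h1 = 0 := by linear_combination -h2
    have h4 := (mul_eq_zero.1 h3).resolve_right hh1
    linear_combination h4
  have hg : w + (2 : ℂ) • w0 = 0 := by
    by_contra hne
    have h2 := T.eig_fld (ω := x + a) (G := w + (2 : ℂ) • w0) (by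
      intro d m h hh
      rw [Derivation.add_apply, Derivation.smul_apply]
      exact Submodule.add_mem _ (hwf d m h hh) (Submodule.smul_mem _ _ (hw0f d m h hh))) hne
      (μ := -6) (fun h => by
        rw [lie_add, lie_smul, hHw, hHw0, hκ12]
        simp only [Derivation.add_apply, Derivation.sub_apply, Derivation.smul_apply,
          Derivation.neg_apply, smul_add, smul_neg, smul_smul]
        have e1 : (-6 * 2 : ℂ) = -12 := by norm_num
        rw [e1]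
        have e2 : (-6 : ℂ) • w h = -((4 : ℂ) • w h) - (2 : ℂ) • w h := by
          rw [← neg_smul, ← sub_smul]
          norm_num
        rw [e2]
        abel)
    rw [hbxa] at h2
    norm_num at h2
  have h2 : ⁅G, w + (2 : ℂ) • w0⁆ = 0 := by rw [hg, lie_zero]
  rw [lie_add, lie_smul, hGw0, smul_zero, add_zero, hGw] at h2
  apply hEne
  have h3 : κ ≠ 0 := by
    rw [hκ12]
    norm_num
  have h4 := congrArg (fun P : Derivation ℂ R R => κ⁻¹ • P) h2
  simp only [smul_smul, inv_mul_cancel₀ h3, one_smul, smul_zero] at h4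
  exact h4

end Vale.Agent.P280.H690
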