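import Vale.Agent.P280.H690.Mix3

/-! P280, T7, helper690: mixing, part 4: the value of the lift at the upper end. -/

open DirectSum Vale.Agent.P280.T Vale.Agent.P280.H127

namespace Vale.Agent.P280.H690

open Vale.Agent.P280.N Vale.Agent.P280.H490 Vale.Agent.P280.H143 Vale.Agent.P280.H60

/-- A monomial whose exponent is determined by the weight. -/
def Mo {r : ℕ} (ν a μ : Fin r → ℤ) (d : ℕ) (m : Fin r → ℤ) (p : Polynomial ℂ) : Prop :=
  ∃ (i : ℕ) (c : ℂ), p = Polynomial.C c * Polynomial.X ^ i ∧ (c ≠ 0 → m = d • ν + i • a + μ)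

theorem Mo.sub {r : ℕ} {ν a μ : Fin r → ℤ} (ha : a ≠ 0) {d : ℕ} {m : Fin r → ℤ}
    {p q : Polynomial ℂ} (hp : Mo ν a μ d m p) (hq : Mo ν a μ d m q) : Mo ν a μ d m (p - q) := by
  obtain ⟨i, c, rfl, hi⟩ := hp
  obtain ⟨j, c', rfl, hj⟩ := hq
  by_cases h1 : c = 0
  · refine ⟨j, -c', ?_, fun h => hj (neg_ne_zero.1 h)⟩
    rw [h1, Polynomial.C_0, zero_mul, zero_sub, Polynomial.C_neg, neg_mul]
  · by_cases h2 : c' = 0
    · refine ⟨i, c, ?_, hi⟩
      rw [h2, Polynomial.C_0, zero_mul, sub_zero]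
    · have h3 : i = j := by
        have h4 := (hi h1).symm.trans (hj h2)
        exact nsmul_inj ha (add_left_cancel (add_right_cancel h4))
      subst h3
      exact ⟨i, c - c', by rw [Polynomial.C_sub, sub_mul], fun _ => hi h1⟩

theorem Mo.deriv {r : ℕ} {ν a μ : Fin r → ℤ} {d : ℕ} {m : Fin r → ℤ} {p : Polynomial ℂ}
    (hp : Mo ν a μ d m p) : Mo ν a (μ + a) d m (Polynomial.derivative p) := by
  obtain ⟨i, c, rfl, hi⟩ := hp
  rcases i with _ | i
  · exact ⟨0, 0, by simp, fun h => absurd rfl h⟩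
  · refine ⟨i, c * ((i : ℂ) + 1), ?_, fun h => ?_⟩
    · rw [Polynomial.derivative_C_mul_X_pow]
      push_cast
      rfl
    · rw [hi (left_ne_zero_of_mul h), add_smul, one_smul]
      abel

theorem coef_near {A B i j : ℕ} (hA : 1 ≤ A) (hB : 1 ≤ B) (hi : i ≤ A) (hj : j ≤ B) (c c' : ℂ) :
    ((Polynomial.C c * Polynomial.X ^ i) * (Polynomial.C c' * Polynomial.X ^ j)).coeff (A + B - 1) =
      (Polynomial.C c * Polynomial.X ^ i).coeff A *
        (Polynomial.C c' * Polynomial.X ^ j).coeff (B - 1) +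
      (Polynomial.C c * Polynomial.X ^ i).coeff (A - 1) *
        (Polynomial.C c' * Polynomial.X ^ j).coeff B := by
  have h1 : (Polynomial.C c * Polynomial.X ^ i) * (Polynomial.C c' * Polynomial.X ^ j) =
      Polynomial.C (c * c') * Polynomial.X ^ (i + j) := by
    rw [Polynomial.C_mul, pow_add]
    ring
  rw [h1]
  simp only [Polynomial.coeff_C_mul_X_pow]
  split_ifs <;> first | omega | ring

section
variable {r : ℕ} {R : Type} [CommRing R] [IsDomain R] [Algebra ℂ R]
  {𝒜 : ℕ × (Fin r → ℤ) → Submodule ℂ R} [GradedAlgebra 𝒜]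

/-- The lift of the tangent vector `v` of weight `e` along the curve gives a tangent vector `u` of
weight `x + e` with `u (G h) = - v (H h)`, if the weights `e - (1 + k) x` do not occur at the
lower end. -/
theorem exists_u (H : H63X.Hyp 𝒜) {y z : FP 𝒜} {x e : Fin r → ℤ} {n : ℕ}
    {φ : R →ₐ[ℂ] Polynomial ℂ} (hφ : Curve y z (-x) n φ) {D G Eu : Derivation ℂ R R}
    (hDf : H93.IsHField 𝒜 x D) (hGf : H93.IsHField 𝒜 (-x) G)
    (hEu : ∀ d m, ∀ h ∈ 𝒜 (d, m), Eu h = (d : ℂ) • h)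
    (hG : ∀ h, φ (G h) = Polynomial.derivative (φ h))
    (hD : ∀ d m, ∀ h ∈ 𝒜 (d, m), φ (D h) = Polynomial.C ((n : ℂ) * d) * (Polynomial.X * φ h) -
        Polynomial.X ^ 2 * Polynomial.derivative (φ h))
    (hno : ∀ k : ℕ, 1 ≤ k → e + k • -x ≠ 0 ∧ ¬ y.Pi (e + k • -x))
    {v : R →ₗ[ℂ] ℂ} (hv : IsTangent z.q v) (hvw : HasWeight 𝒜 z.ν e v) :
    ∃ u : R →ₗ[ℂ] ℂ, IsTangent z.q u ∧ HasWeight 𝒜 z.ν (x + e) u ∧ (∀ h, v (G h) = 0) ∧
      ∀ h, u (G h) = -(v ((⁅D, G⁆ - (n : ℂ) • Eu) h)) := by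
  classical
  have ha := H63X.ne_zero_of_curve H hφ
  have hX := H.hX
  obtain ⟨δ, hδ, hdeg, htop⟩ := H63X.exists_lift H hφ hv hvw
  have hδ1 : δ 1 = 0 := by
    have h1 := hδ 1 1
    rw [mul_one, map_one φ, one_mul, left_eq_add] at h1
    exact h1
  have hδc : ∀ c : ℂ, δ (algebraMap ℂ R c) = 0 := by
    intro c
    rw [Algebra.algebraMap_eq_smul_one, map_smul, hδ1, smul_zero]
  have hMo : ∀ d m, ∀ h ∈ 𝒜 (d, m), Mo y.ν (-x) e d m (δ h) := by
    intro d m h hh
    by_cases h0 : δ h = 0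
    · exact ⟨0, 0, by rw [h0]; simp, fun h => absurd rfl h⟩
    · obtain ⟨i, -, hm, c, hc⟩ := hdeg d m h hh h0
      exact ⟨i, c, hc, fun _ => hm⟩
  -- the derivation along `G`
  set ε : R →ₗ[ℂ] Polynomial ℂ := Polynomial.derivative.comp δ - δ.comp (G : R →ₗ[ℂ] R) with hε
  have hεa : ∀ h, ε h = Polynomial.derivative (δ h) - δ (G h) := fun h => rfl
  have hεD : Dr 𝒜 y (-x) (e + -x) φ ε := by
    constructor
    · intro f g
      rw [hεa, hεa, hεa, hδ, Derivation.leibniz, smul_eq_mul, smul_eq_mul, map_add δ, hδ f, hδ g,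
        hG, hG, Polynomial.derivative_add, Polynomial.derivative_mul, Polynomial.derivative_mul]
      ring
    · intro d m h hh hne
      have h1 : Mo y.ν (-x) (e + -x) d m (δ (G h)) := by
        obtain ⟨i, c, hc, hm⟩ := hMo d _ _ (hGf d m h hh)
        refine ⟨i, c, hc, fun h0 => ?_⟩
        have h2 := hm h0
        rw [← add_assoc, ← h2]
        abel
      obtain ⟨i, c, hc, hm⟩ := (hMo d m h hh).deriv.sub ha h1
      rw [hεa] at hne ⊢
      refine ⟨i, hm ?_, c, hc⟩
      rintro rfl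
      rw [Polynomial.C_0, zero_mul] at hc
      exact hne hc
  have hε0 : ∀ h, ε h = 0 := by
    have h1 := dr_zero (K := 0) hφ (fun k hk => (hno k hk).1) (fun k hk => (hno k hk).2)
      hεD.mulX (fun h i hi => by
        obtain rfl : i = 0 := by omega
        change (Polynomial.X * ε h).coeff 0 = 0
        rw [Polynomial.coeff_X_mul_zero])
    intro h
    have h2 : Polynomial.X * ε h = 0 := h1 h
    exact (mul_eq_zero.1 h2).resolve_left Polynomial.X_ne_zero
  have hδG : ∀ h, δ (G h) = Polynomial.derivative (δ h) := by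
    intro h
    have h1 := hε0 h
    rw [hεa, sub_eq_zero] at h1
    exact h1.symm
  -- degrees
  have hδdeg : ∀ d m, ∀ h ∈ 𝒜 (d, m), ∃ (i : ℕ) (c : ℂ), i ≤ d * n ∧
      δ h = Polynomial.C c * Polynomial.X ^ i := by
    intro d m h hh
    by_cases h0 : δ h = 0
    · exact ⟨0, 0, Nat.zero_le _, by rw [h0]; simp⟩
    · obtain ⟨i, hi, -, c, hc⟩ := hdeg d m h hh h0
      exact ⟨i, c, hi, hc⟩
  have hvG : ∀ h, v (G h) = 0 := by
    have h1 : v.comp (G : R →ₗ[ℂ] R) = 0 := by
      apply linearMap_ext_graded 𝒜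
      rintro ⟨d, m⟩ h hh
      obtain ⟨i, c, hi, hc⟩ := hδdeg d m h hh
      change v (G h) = 0
      rw [← htop d _ _ (hGf d m h hh), hδG, Polynomial.coeff_derivative, hc,
        Polynomial.coeff_C_mul_X_pow, if_neg (by omega), zero_mul]
    exact fun h => LinearMap.congr_fun h1 h
  -- the linear form
  set U : R →ₗ[ℂ] ℂ := H644.tw 𝒜 fun i => (Polynomial.lcoeff ℂ (i.1 * n - 1)).comp δ with hU
  have hUa : ∀ d m, ∀ h ∈ 𝒜 (d, m), U h = (δ h).coeff (d * n - 1) := by
    intro d m h hh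
    rw [hU, H644.tw_mem 𝒜 _ hh]
    rfl
  have hzD : ∀ d m, ∀ h ∈ 𝒜 (d, m), 1 ≤ d → z.q (D h) = (φ h).coeff (d * n - 1) := by
    intro d m h hh hd
    have hdn : 1 ≤ d * n := Nat.mul_pos hd hφ.n1
    obtain ⟨i, hi, -, c, hc⟩ := form hφ hh
    have hX2 : Polynomial.X ^ 2 * Polynomial.derivative (φ h) =
        Polynomial.C (i : ℂ) * (Polynomial.X * φ h) := by
      rw [hc, Polynomial.derivative_C_mul_X_pow]
      rcases i with _ | i
      · simp
      · rw [Nat.add_sub_cancel, Polynomial.C_mul]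
        ring
    have e2 : φ (D h) = Polynomial.C (c * (n * d - i)) * Polynomial.X ^ (i + 1) := by
      rw [hD d m h hh, hX2, hc]
      simp only [Polynomial.C_mul, Polynomial.C_sub]
      ring
    rw [← hφ.ev' d _ _ (hDf d m h hh), e2, hc, Polynomial.coeff_C_mul_X_pow,
      Polynomial.coeff_C_mul_X_pow]
    by_cases h6 : d * n = i + 1
    · rw [if_pos h6, if_pos (by omega)]
      have h7 : (d : ℂ) * n = i + 1 := by exact_mod_cast h6
      linear_combination c * h7
    · rw [if_neg h6, if_neg (by omega)]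
  have hvc : ∀ c : ℂ, v (algebraMap ℂ R c) = 0 := by
    intro c
    have h1 := hv 1 1
    rw [mul_one, map_one z.q, one_mul, left_eq_add] at h1
    rw [Algebra.algebraMap_eq_smul_one, map_smul, h1, smul_zero]
  have hUc : ∀ (m : Fin r → ℤ) (c : ℂ), algebraMap ℂ R c ∈ 𝒜 (0, m) →
      U (algebraMap ℂ R c) = 0 := by
    intro m c hm
    rw [hUa 0 m _ hm, hδc, Polynomial.coeff_zero]
  refine ⟨U - v.comp (D : R →ₗ[ℂ] R), ?_, ?_, hvG, ?_⟩
  · refine H644.isDer_of_hom (𝒜 := 𝒜) ?_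
    have hua : ∀ h, (U - v.comp (D : R →ₗ[ℂ] R)) h = U h - v (D h) := fun h => rfl
    rintro ⟨d, m⟩ ⟨d', m'⟩ f hf g hg
    rw [hua, hua, hua]
    rcases Nat.eq_zero_or_pos d with hd | hd
    · subst hd
      obtain ⟨c, rfl⟩ := hX.zero m f hf
      rw [hUc m c hf, Derivation.map_algebraMap, map_zero, ← Algebra.smul_def, map_smul,
        Derivation.map_smul, map_smul, AlgHom.commutes]
      simp only [Algebra.algebraMap_self, RingHom.id_apply, smul_eq_mul]
      ring
    rcases Nat.eq_zero_or_pos d' with hd' | hd'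
    · subst hd'
      obtain ⟨c, rfl⟩ := hX.zero m' g hg
      rw [hUc m' c hg, Derivation.map_algebraMap, map_zero, mul_comm f, ← Algebra.smul_def,
        map_smul, Derivation.map_smul, map_smul, AlgHom.commutes]
      simp only [Algebra.algebraMap_self, RingHom.id_apply, smul_eq_mul]
      ring
    have hdn : 1 ≤ d * n := Nat.mul_pos hd hφ.n1
    have hdn' : 1 ≤ d' * n := Nat.mul_pos hd' hφ.n1
    have hfg : U (f * g) = z.q f * (δ g).coeff (d' * n - 1) + z.q (D f) * v g +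
        (z.q g * (δ f).coeff (d * n - 1) + z.q (D g) * v f) := by
      obtain ⟨i, hi, -, c, hc⟩ := form hφ hf
      obtain ⟨j, c', hj, hc'⟩ := hδdeg d' m' g hg
      obtain ⟨i', hi', -, k, hk⟩ := form hφ hg
      obtain ⟨j', k', hj', hk'⟩ := hδdeg d m f hf
      have e1 := coef_near hdn hdn' hi hj c c'
      have e2 := coef_near hdn' hdn hi' hj' k k'
      rw [← hc, ← hc'] at e1
      rw [← hk, ← hk', add_comm (d' * n) (d * n)] at e2
      have h1 : f * g ∈ 𝒜 ((d, m) + (d', m')) := SetLike.mul_mem_graded hf hg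
      rw [hUa (d + d') (m + m') _ h1, hδ, Polynomial.coeff_add, add_mul, e1, e2,
        hφ.ev' d m f hf, hφ.ev' d' m' g hg, htop d m f hf, htop d' m' g hg, hzD d m f hf hd,
        hzD d' m' g hg hd']
    rw [hfg, hUa d m f hf, hUa d' m' g hg, Derivation.leibniz, smul_eq_mul, smul_eq_mul, map_add,
      hv, hv]
    ring
  · intro d m h hh hne
    change U h - v (D h) ≠ 0 at hne
    by_cases h1 : v (D h) = 0
    · rw [h1, sub_zero, hUa d m h hh] at hne
      have h0 : δ h ≠ 0 := fun h0 => hne (by rw [h0, Polynomial.coeff_zero])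
      obtain ⟨i, hi, hm, c, hc⟩ := hdeg d m h hh h0
      rw [hc, Polynomial.coeff_C_mul_X_pow] at hne
      have hi' : d * n - 1 = i := by
        by_contra h2
        exact hne (if_neg h2)
      have hd : 1 ≤ d := by
        rcases Nat.eq_zero_or_pos d with hd | hd
        · subst hd
          obtain ⟨c, rfl⟩ := hX.zero m h hh
          exact absurd (hδc c) h0
        · exact hd
      have hdn : 1 ≤ d * n := Nat.mul_pos hd hφ.n1
      obtain ⟨j, hj⟩ : ∃ j, d * n = j + 1 := ⟨d * n - 1, by omega⟩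
      have hij : i = j := by omega
      have h3 : d • z.ν = d • y.ν + (d * n) • -x := by
        rw [hφ.nu, smul_add, mul_smul]
      rw [h3, hm, hij, hj, add_smul, one_smul]
      abel
    · have h2 := hvw d _ _ (hDf d m h hh) h1
      rw [sub_eq_iff_eq_add] at h2
      rw [h2]
      abel
  · have h1 : (U - v.comp (D : R →ₗ[ℂ] R)).comp (G : R →ₗ[ℂ] R) =
        -(v.comp ((⁅D, G⁆ - (n : ℂ) • Eu : Derivation ℂ R R) : R →ₗ[ℂ] R)) := by
      apply linearMap_ext_graded 𝒜
      rintro ⟨d, m⟩ h hh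
      change U (G h) - v (D (G h)) = -(v ((⁅D, G⁆ - (n : ℂ) • Eu) h))
      rw [Derivation.sub_apply, Derivation.commutator_apply, Derivation.smul_apply,
        hEu d m h hh, map_sub, map_sub, hvG, map_smul, map_smul, smul_eq_mul, smul_eq_mul]
      have h2 : U (G h) = (n : ℂ) * (d * v h) := by
        rw [hUa d _ _ (hGf d m h hh), hδG]
        rcases Nat.eq_zero_or_pos d with hd | hd
        · subst hd
          obtain ⟨c, rfl⟩ := hX.zero m h hh
          rw [hδc, Polynomial.derivative_zero, Polynomial.coeff_zero, hvc]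
          ring
        · have hdn : 1 ≤ d * n := Nat.mul_pos hd hφ.n1
          obtain ⟨j, hj⟩ : ∃ j, d * n = j + 1 := ⟨d * n - 1, by omega⟩
          rw [Polynomial.coeff_derivative, ← htop d m h hh, hj, Nat.add_sub_cancel]
          have h7 : (d : ℂ) * n = j + 1 := by exact_mod_cast hj
          linear_combination (-(δ h).coeff (j + 1)) * h7
      rw [h2]
      ring
    intro h
    exact LinearMap.congr_fun h1 h

end

end Vale.Agent.P280.H690
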