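import Vale.Agent.P280.H690.WallStep
import Vale.Agent.P280.H347.Bad

/-! P280, plan T7: the first open set of the cover (the cell of the source). -/

open DirectSum Vale.Agent.P280.T Vale.Agent.P280.H127 Vale.Agent.P280.N

namespace Vale.Agent.P280.H690

open Vale.Agent.P280.H749

variable {r : ℕ} {R : Type} [CommRing R] [IsDomain R] [Algebra ℂ R]
  {𝒜 : ℕ × (Fin r → ℤ) → Submodule ℂ R} [GradedAlgebra 𝒜]

/-- The source is the lowest fixed point. -/
theorem low_pt (H : H63X.Hyp 𝒜) {c : (Fin r → ℤ) →+ ℤ} {p : FP 𝒜} (hp : Pos c p) (y : FP 𝒜) :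
    c p.ν ≤ c y.ν := by
  have hlow := (H63X.low_iff H c p).2 hp
  obtain ⟨h, hh, hne⟩ := exists_deg_one_ne H.hX.gen y.nv y.fix
  have h1 := hlow 1 _ h hh (ne_zero_of_q hne)
  rwa [one_smul] at h1

/-- The source is the only fixed point of its slope. -/
theorem same_of_low (H : H63X.Hyp 𝒜) {c : (Fin r → ℤ) →+ ℤ} (hc : ∀ μ, Wt 𝒜 μ → c μ ≠ 0)
    {p : FP 𝒜} (hp : Pos c p) {y : FP 𝒜} (hy : c y.ν ≤ c p.ν) : SamePoint 𝒜 p.q y.q := by
  refine H63X.pos_unique H c hc hp ((H63X.low_iff H c y).1 fun d m h hh hne => ?_)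
  have h1 := (H63X.low_iff H c p).2 hp d m h hh hne
  refine le_trans ?_ h1
  rw [nsmul_eq_mul, nsmul_eq_mul]
  exact mul_le_mul_of_nonneg_left hy (Nat.cast_nonneg d)

/-- A homogeneous rational field which is regular at the source is regular on its cell. -/
theorem rgV_cell (H : H63X.Hyp 𝒜) {c : (Fin r → ℤ) →+ ℤ} (hc : ∀ μ, Wt 𝒜 μ → c μ ≠ 0)
    {p : FP 𝒜} (hp : Pos c p) {f : R} (hf : f ∈ 𝒜 (1, p.ν)) {χ : Fin r → ℤ}
    {v : VF R} (hv : HV 𝒜 χ v) (hvp : RgV p.q v) {q : R →ₐ[ℂ] ℂ} (hq : q f ≠ 0) : RgV q v := by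
  by_contra hcon
  have hq0 : ¬ IsVertex 𝒜 q := fun h => hq (h 1 _ Nat.one_pos f hf)
  have hI : Ind p (Fin.elim0 : Fin 0 → VF R) (Fin.elim0 : Fin 0 → Fin r → ℤ) :=
    ⟨fun i => i.elim0, fun i => i.elim0, fun i => i.elim0, fun i => i.elim0, fun i => i.elim0⟩
  have hrm : ∀ q : R →ₐ[ℂ] ℂ, RM q (Set.range (Fin.elim0 : Fin 0 → VF R)) v ↔ RgV q v := by
    intro q
    rw [Set.range_eq_empty]
    exact rm_empty
  obtain ⟨y, hy, hlow⟩ := H347.exists_lowest_bad H.hX hI hv (H587.lexHom c)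
    (H587.lexHom_injective c) hq0 (by rw [hrm]; exact hcon)
  rw [hrm] at hy
  have h1 := hlow q (by rw [hrm]; exact hcon) 1 _ f hf hq
  rw [one_smul] at h1
  have h2 : c y.ν ≤ c p.ν := by
    by_contra hlt
    push Not at hlt
    have h3 : H587.lexHom c (p.ν - y.ν) < 0 := by
      apply H587.lexHom_neg
      rw [map_sub]
      linarith
    rw [map_sub] at h3
    exact absurd h1 (not_le.2 (sub_neg.1 h3))
  exact hy (rgV_same H.hX (same_of_low H hc hp h2) hv hvp)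

/-- A homogeneous rational field which is regular where `s ≠ 0` has a power of `s` as a
denominator. -/
theorem pow_field (hX : IsTorusManifold 𝒜) {χ : Fin r → ℤ} {v : VF R} (hv : HV 𝒜 χ v) {s : R}
    (h : ∀ q : R →ₐ[ℂ] ℂ, q s ≠ 0 → RgV q v) :
    ∃ N : ℕ, ∀ x : R, ∃ a : R, iK (s ^ N) * v (iK x) = iK a := by
  obtain ⟨N0, γ, g, D, hg, hg0, hD, hDh⟩ := H900.exists_den hX hv
  have h1 : s ∈ (cond g D).radical := by
    by_contra hcon
    have := hX.finiteType
    obtain ⟨z, hz, hzs⟩ := exists_point hcon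
    obtain ⟨s', hs', hs''⟩ := H900.exists_cond hX (h z hzs) hD
    exact hs' (hz s' hs'')
  obtain ⟨N, hN⟩ := h1
  refine ⟨N, fun x => ?_⟩
  obtain ⟨a, ha⟩ := hN x
  refine ⟨a, mul_left_cancel₀ (iK_ne_zero hg0) ?_⟩
  rw [← iK_mul g a, ← ha, iK_mul, hD]
  ring

/-- **The start of the cover.** -/
theorem dt_start {ι : Type} [Fintype ι] (H : H63X.Hyp 𝒜) {c : (Fin r → ℤ) →+ ℤ}
    (hc : ∀ μ, Wt 𝒜 μ → c μ ≠ 0) {p : FP 𝒜} (hp : Pos c p) {f : R} (hf : f ∈ 𝒜 (1, p.ν))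
    {χ : Fin r → ℤ} {v : VF R} (hv : HV 𝒜 χ v) (hvp : RgV p.q v) (θ : ι → Fin r → ℤ)
    (w : ι → VF R) (g : FP 𝒜 → ι → FractionRing R) : Dt 𝒜 c θ w v g {(f, 0)} := by
  refine { hom := ?_, hk := ?_, cmp := ?_, fld := ?_, wal := ?_, slp := ?_ }
  · intro P hP
    rw [Finset.mem_singleton] at hP
    subst hP
    exact ⟨1, p.ν, Nat.one_pos, hf⟩
  · intro P hP i
    rw [Finset.mem_singleton] at hP
    subst hP
    exact HK.zero le_rfl
  · intro P hP P' hP' q _ _ i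
    rw [Finset.mem_singleton] at hP hP'
    subst hP
    subst hP'
    rw [sub_self]
    exact Rg.zero
  · intro P hP q hq
    rw [Finset.mem_singleton] at hP
    subst hP
    have h1 : v - ∑ i, ((f, (0 : ι → FractionRing R)) : R × (ι → FractionRing R)).2 i • w i = v := by
      have h2 : ∑ i, ((f, (0 : ι → FractionRing R)) : R × (ι → FractionRing R)).2 i • w i = 0 :=
        Finset.sum_eq_zero fun i _ => zero_smul _ (w i)
      rw [h2, sub_zero]
    rw [h1]
    exact rgV_cell H hc hp hf hv hvp hq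
  · intro P hP y b hy hyP i
    rw [Finset.mem_singleton] at hP
    subst hP
    exfalso
    have h1 := y.fix 1 _ f hf hyP
    have h2 : y.ν = p.ν := by rw [one_smul] at h1; exact h1.symm
    have h5 : Pos c y := (H63X.low_iff H c y).1 (by
      intro d m h hh hne
      rw [h2]
      exact (H63X.low_iff H c p).2 hp d m h hh hne)
    have h6 := h5 _ hy.pi
    rw [map_neg] at h6
    have h7 := hy.pos
    omega
  · intro P hP z _
    rw [Finset.mem_singleton] at hP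
    subst hP
    refine ⟨1, p.ν, hf, ?_⟩
    rw [Nat.cast_one, one_mul]
    exact low_pt H hp z

end Vale.Agent.P280.H690
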